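import Vale.Agent.P082.F.HdHd

/-!
# Bounded cochains form a space on which the differential acts
-/

namespace Vale.Agent.P082

set_option linter.unusedSectionVars false

open Function (update)

universe u

variable {H : Type u} [NormedAddCommGroup H] [InnerProductSpace ℂ H] [CompleteSpace H]
variable {M : VonNeumannAlgebra H} {k : ℕ} {f g : Coch H k} {C D : ℝ}

lemma mem_smul (c : ℂ) {x : H →L[ℂ] H} (hx : x ∈ M) : c • x ∈ M :=
  M.toStarSubalgebra.smul_mem hx c

/-! ### Tuples from `M` -/

lemma Args.update {a : Fin k → (H →L[ℂ] H)} (ha : Args M a) (i : Fin k) {x : H →L[ℂ] H}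
    (hx : x ∈ M) : Args M (Function.update a i x) := fun j => by
  rcases eq_or_ne j i with rfl | h
  · rwa [Function.update_self]
  · rw [Function.update_of_ne h]; exact ha j

lemma Args.cons {a : Fin k → (H →L[ℂ] H)} (ha : Args M a) {x : H →L[ℂ] H} (hx : x ∈ M) :
    Args M (Fin.cons x a : Fin (k + 1) → (H →L[ℂ] H)) :=
  Fin.cases (by simpa using hx) (fun i => by simpa using ha i)

lemma Args.tail {a : Fin (k + 1) → (H →L[ℂ] H)} (ha : Args M a) : Args M (Fin.tail a) :=
  fun i => ha i.succ

lemma Args.init {a : Fin (k + 1) → (H →L[ℂ] H)} (ha : Args M a) : Args M (Fin.init a) :=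
  fun i => ha i.castSucc

lemma Args.contract {a : Fin (k + 1) → (H →L[ℂ] H)} (ha : Args M a) (j : Fin (k + 1)) :
    Args M (Fin.contractNth j (· * ·) a) := fun i => by
  rcases lt_trichotomy (i : ℕ) j with h | h | h
  · rw [Fin.contractNth_apply_of_lt _ _ _ _ h]; exact ha _
  · rw [Fin.contractNth_apply_of_eq _ _ _ _ h]; exact mul_mem (ha _) (ha _)
  · rw [Fin.contractNth_apply_of_gt _ _ _ _ h]; exact ha _

/-- A contraction of neighbours does not increase the product of the norms. -/
lemma prod_norm_contract_le {k : ℕ} (a : Fin (k + 1) → (H →L[ℂ] H)) (j : Fin k) :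
    ∏ i, ‖Fin.contractNth j.castSucc (· * ·) a i‖ ≤ ∏ i, ‖a i‖ := by
  induction k with
  | zero => exact j.elim0
  | succ k ih =>
    obtain ⟨x, b, rfl⟩ : ∃ x c, a = Fin.cons x c := ⟨a 0, Fin.tail a, (Fin.cons_self_tail a).symm⟩
    cases j using Fin.cases with
    | zero =>
      simp only [Fin.castSucc_zero, contractNth_cons_zero, Fin.prod_univ_succ, Fin.cons_zero,
        Fin.cons_succ, Fin.tail, ← mul_assoc]
      exact mul_le_mul_of_nonneg_right (norm_mul_le _ _) (Finset.prod_nonneg fun _ _ => norm_nonneg _)
    | succ j =>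
      simp only [contractNth_cons_succ, Fin.prod_univ_succ, Fin.cons_zero, Fin.cons_succ]
      exact mul_le_mul_of_nonneg_left ((ih b j).trans_eq (Fin.prod_univ_succ _)) (norm_nonneg _)

/-! ### Agreement on `M` -/

lemma EqOn.rfl' : EqOn M f f := fun _ _ => rfl

lemma EqOn.symm (h : EqOn M f g) : EqOn M g f := fun a ha => (h a ha).symm

lemma EqOn.trans {e : Coch H k} (h : EqOn M f g) (h' : EqOn M g e) : EqOn M f e :=
  fun a ha => (h a ha).trans (h' a ha)

lemma EqOn.hd (h : EqOn M f g) : EqOn M (hd f) (hd g) := fun a ha => by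
  rw [hd_apply, hd_apply, h _ ha.tail, h _ ha.init]
  congr 2
  exact Finset.sum_congr rfl fun j _ => by rw [h _ (ha.contract _)]

/-- A cochain minus a coboundary is a cocycle if the cochain is one. -/
lemma IsCocycle.sub_hd {f : Coch H (k + 1)} (hf : IsCocycle M f) (h : Coch H k) :
    IsCocycle M (f - Vale.Agent.P082.hd h) := fun a ha => by
  rw [hd_sub, hd_hd, sub_zero]; exact hf a ha

lemma IsCocycle.congr (hf : IsCocycle M f) (h : EqOn M f g) : IsCocycle M g :=
  h.symm.hd.trans hf

/-! ### Bounded cochains -/

lemma IsCochain.congr (hf : IsCochain M f C) (h : EqOn M f g) : IsCochain M g C where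
  mem a ha := h a ha ▸ hf.mem a ha
  map_add a ha i x hx y hy := by
    rw [← h _ (ha.update i (add_mem hx hy)), ← h _ (ha.update i hx), ← h _ (ha.update i hy)]
    exact hf.map_add a ha i x hx y hy
  map_smul a ha i c x hx := by
    rw [← h _ (ha.update i (mem_smul c hx)), ← h _ (ha.update i hx)]
    exact hf.map_smul a ha i c x hx
  bound a ha := h a ha ▸ hf.bound a ha

lemma IsCochain.mono (hf : IsCochain M f C) (h : C ≤ D) : IsCochain M f D :=
  { hf with
    bound := fun a ha => (hf.bound a ha).trans
      (mul_le_mul_of_nonneg_right h (Finset.prod_nonneg fun _ _ => norm_nonneg _)) }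

lemma isCochain_zero (hC : 0 ≤ C) : IsCochain M (0 : Coch H k) C where
  mem _ _ := zero_mem M
  map_add _ _ _ _ _ _ _ := by simp
  map_smul _ _ _ _ _ _ := by simp
  bound _ _ := by
    rw [Pi.zero_apply, norm_zero]
    exact mul_nonneg hC (Finset.prod_nonneg fun _ _ => norm_nonneg _)

lemma IsCochain.add (hf : IsCochain M f C) (hg : IsCochain M g D) :
    IsCochain M (f + g) (C + D) where
  mem a ha := add_mem (hf.mem a ha) (hg.mem a ha)
  map_add a ha i x hx y hy := by
    simp only [Pi.add_apply, hf.map_add a ha i x hx y hy, hg.map_add a ha i x hx y hy]; abel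
  map_smul a ha i c x hx := by
    simp only [Pi.add_apply, hf.map_smul a ha i c x hx, hg.map_smul a ha i c x hx, smul_add]
  bound a ha := (norm_add_le _ _).trans
    ((add_le_add (hf.bound a ha) (hg.bound a ha)).trans_eq (add_mul _ _ _).symm)

lemma IsCochain.smul (hf : IsCochain M f C) (c : ℂ) : IsCochain M (c • f) (‖c‖ * C) where
  mem a ha := mem_smul c (hf.mem a ha)
  map_add a ha i x hx y hy := by
    simp only [Pi.smul_apply, hf.map_add a ha i x hx y hy, smul_add]
  map_smul a ha i d x hx := by
    simp only [Pi.smul_apply, hf.map_smul a ha i d x hx, smul_comm c d]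
  bound a ha := by
    rw [Pi.smul_apply, norm_smul, mul_assoc]
    exact mul_le_mul_of_nonneg_left (hf.bound a ha) (norm_nonneg c)

lemma IsCochain.neg (hf : IsCochain M f C) : IsCochain M (-f) C := by
  simpa using hf.smul (-1)

lemma IsCochain.sub (hf : IsCochain M f C) (hg : IsCochain M g D) :
    IsCochain M (f - g) (C + D) := sub_eq_add_neg f g ▸ hf.add hg.neg

lemma IsCochain.sum {ι : Type*} (s : Finset ι) {F : ι → Coch H k} {B : ι → ℝ}
    (hF : ∀ i ∈ s, IsCochain M (F i) (B i)) : IsCochain M (∑ i ∈ s, F i) (∑ i ∈ s, B i) := by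
  classical
  induction s using Finset.induction with
  | empty => simpa using isCochain_zero (M := M) (k := k) le_rfl
  | insert i s his ih =>
    rw [Finset.sum_insert his, Finset.sum_insert his]
    exact (hF i (Finset.mem_insert_self i s)).add
      (ih fun j hj => hF j (Finset.mem_insert_of_mem hj))

lemma IsCochain.map_zero (hf : IsCochain M f C) {a : Fin k → (H →L[ℂ] H)} (ha : Args M a)
    (i : Fin k) : f (update a i 0) = 0 := by
  simpa using hf.map_smul a ha i 0 0 (zero_mem M)

lemma IsCochain.map_neg (hf : IsCochain M f C) {a : Fin k → (H →L[ℂ] H)} (ha : Args M a)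
    (i : Fin k) {x : H →L[ℂ] H} (hx : x ∈ M) : f (update a i (-x)) = -f (update a i x) := by
  simpa using hf.map_smul a ha i (-1) x hx

lemma IsCochain.map_sub (hf : IsCochain M f C) {a : Fin k → (H →L[ℂ] H)} (ha : Args M a)
    (i : Fin k) {x y : H →L[ℂ] H} (hx : x ∈ M) (hy : y ∈ M) :
    f (update a i (x - y)) = f (update a i x) - f (update a i y) := by
  rw [sub_eq_add_neg, hf.map_add a ha i x hx (-y) (neg_mem hy), hf.map_neg ha i hy, sub_eq_add_neg]

lemma IsCochain.map_sum (hf : IsCochain M f C) {a : Fin k → (H →L[ℂ] H)} (ha : Args M a)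
    (i : Fin k) {ι : Type*} (s : Finset ι) {x : ι → (H →L[ℂ] H)} (hx : ∀ j ∈ s, x j ∈ M) :
    f (update a i (∑ j ∈ s, x j)) = ∑ j ∈ s, f (update a i (x j)) := by
  classical
  induction s using Finset.induction with
  | empty => simpa using hf.map_zero ha i
  | insert j s hjs ih =>
    have h1 : ∀ l ∈ s, x l ∈ M := fun l hl => hx l (Finset.mem_insert_of_mem hl)
    rw [Finset.sum_insert hjs, Finset.sum_insert hjs,
      hf.map_add a ha i _ (hx j (Finset.mem_insert_self j s)) _ (sum_mem h1), ih h1]

/-- Contracting neighbours is affine in every argument. -/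
lemma contract_update {k : ℕ} {a : Fin (k + 1) → (H →L[ℂ] H)} (ha : Args M a) (j : Fin k)
    (i : Fin (k + 1)) :
    ∃ (i' : Fin k) (l r : H →L[ℂ] H), l ∈ M ∧ r ∈ M ∧ ∀ x,
      Fin.contractNth j.castSucc (· * ·) (update a i x)
        = update (Fin.contractNth j.castSucc (· * ·) a) i' (l * x * r) := by
  induction k with
  | zero => exact j.elim0
  | succ k ih =>
    obtain ⟨y, b, rfl⟩ : ∃ y c, a = Fin.cons y c := ⟨a 0, Fin.tail a, (Fin.cons_self_tail a).symm⟩
    have hy : y ∈ M := by simpa using ha 0
    have hb : Args M b := fun l => by simpa using ha l.succ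
    cases j using Fin.cases with
    | zero =>
      cases i using Fin.cases with
      | zero =>
        refine ⟨0, 1, b 0, one_mem M, hb 0, fun x => ?_⟩
        simp only [Fin.update_cons_zero, Fin.castSucc_zero, contractNth_cons_zero, one_mul]
      | succ i =>
        cases i using Fin.cases with
        | zero =>
          refine ⟨0, y, 1, hy, one_mem M, fun x => ?_⟩
          simp only [← Fin.cons_update, Fin.castSucc_zero, contractNth_cons_zero,
            Function.update_self, Fin.update_cons_zero, Fin.tail_update_zero, mul_one]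
        | succ i =>
          refine ⟨i.succ, 1, 1, one_mem M, one_mem M, fun x => ?_⟩
          simp only [← Fin.cons_update, Fin.castSucc_zero, contractNth_cons_zero,
            Function.update_of_ne (Fin.succ_ne_zero i).symm, Fin.tail_update_succ, one_mul, mul_one]
    | succ j =>
      cases i using Fin.cases with
      | zero =>
        refine ⟨0, 1, 1, one_mem M, one_mem M, fun x => ?_⟩
        simp only [Fin.update_cons_zero, contractNth_cons_succ, one_mul, mul_one]
      | succ i =>
        obtain ⟨i', l, r, hl, hr, h⟩ := ih hb j i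
        refine ⟨i'.succ, l, r, hl, hr, fun x => ?_⟩
        simp only [← Fin.cons_update, contractNth_cons_succ, h]

/-- The face obtained by contracting two neighbours. -/
lemma IsCochain.comp_contract (hf : IsCochain M f C) (hC : 0 ≤ C) (j : Fin k) :
    IsCochain M (fun a => f (Fin.contractNth j.castSucc (· * ·) a)) C where
  mem a ha := hf.mem _ (ha.contract _)
  map_add a ha i x hx y hy := by
    obtain ⟨i', l, r, hl, hr, h⟩ := contract_update ha j i
    simp only [h, mul_add, add_mul]
    exact hf.map_add _ (ha.contract _) i' _ (mul_mem (mul_mem hl hx) hr) _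
      (mul_mem (mul_mem hl hy) hr)
  map_smul a ha i c x hx := by
    obtain ⟨i', l, r, hl, hr, h⟩ := contract_update ha j i
    simp only [h, mul_smul_comm, smul_mul_assoc]
    exact hf.map_smul _ (ha.contract _) i' c _ (mul_mem (mul_mem hl hx) hr)
  bound a ha := (hf.bound _ (ha.contract _)).trans
    (mul_le_mul_of_nonneg_left (prod_norm_contract_le a j) hC)

/-- The face with the first argument outside. -/
lemma IsCochain.comp_tail (hf : IsCochain M f C) :
    IsCochain M (fun a : Fin (k + 1) → (H →L[ℂ] H) => a 0 * f (Fin.tail a)) C where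
  mem a ha := mul_mem (ha 0) (hf.mem _ ha.tail)
  map_add a ha i x hx y hy := by
    cases i using Fin.cases with
    | zero => simp [Fin.tail_update_zero, add_mul]
    | succ i =>
      simp only [Function.update_of_ne (Fin.succ_ne_zero i).symm, Fin.tail_update_succ,
        hf.map_add _ ha.tail i x hx y hy, mul_add]
  map_smul a ha i c x hx := by
    cases i using Fin.cases with
    | zero => simp [Fin.tail_update_zero, smul_mul_assoc]
    | succ i =>
      simp only [Function.update_of_ne (Fin.succ_ne_zero i).symm, Fin.tail_update_succ,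
        hf.map_smul _ ha.tail i c x hx, mul_smul_comm]
  bound a ha := by
    refine (norm_mul_le _ _).trans ?_
    rw [Fin.prod_univ_succ, ← mul_assoc, mul_comm C, mul_assoc]
    exact mul_le_mul_of_nonneg_left (hf.bound _ ha.tail) (norm_nonneg _)

/-- The face with the last argument outside. -/
lemma IsCochain.comp_init (hf : IsCochain M f C) :
    IsCochain M (fun a : Fin (k + 1) → (H →L[ℂ] H) => f (Fin.init a) * a (Fin.last k)) C where
  mem a ha := mul_mem (hf.mem _ ha.init) (ha _)
  map_add a ha i x hx y hy := by
    cases i using Fin.lastCases with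
    | last => simp [Fin.init_update_last, mul_add]
    | cast i =>
      simp only [Function.update_of_ne (Fin.castSucc_lt_last i).ne', Fin.init_update_castSucc,
        hf.map_add _ ha.init i x hx y hy, add_mul]
  map_smul a ha i c x hx := by
    cases i using Fin.lastCases with
    | last => simp [Fin.init_update_last]
    | cast i =>
      simp only [Function.update_of_ne (Fin.castSucc_lt_last i).ne', Fin.init_update_castSucc,
        hf.map_smul _ ha.init i c x hx, smul_mul_assoc]
  bound a ha := by
    refine (norm_mul_le _ _).trans ?_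
    rw [Fin.prod_univ_castSucc, ← mul_assoc]
    exact mul_le_mul_of_nonneg_right (hf.bound _ ha.init) (norm_nonneg _)

/-- The differential of a bounded cochain is one. -/
lemma IsCochain.hd (hf : IsCochain M f C) (hC : 0 ≤ C) :
    IsCochain M (hd f) ((k + 2) * C) := by
  have h := (hf.comp_tail.add (IsCochain.sum (Finset.univ : Finset (Fin k))
    fun j _ => (hf.comp_contract hC j).smul ((-1 : ℂ) ^ ((j : ℕ) + 1)))).add
      (hf.comp_init.smul ((-1 : ℂ) ^ (k + 1)))
  refine (h.congr fun a _ => ?_).mono (le_of_eq ?_)
  · simp only [Pi.add_apply, Finset.sum_apply, Pi.smul_apply, hd_apply]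
  · simp
    ring

/-- Changing one argument changes the value by little. -/
lemma IsCochain.norm_sub_update_le (hf : IsCochain M f C) {a : Fin k → (H →L[ℂ] H)} (ha : Args M a)
    (i : Fin k) {x y : H →L[ℂ] H} (hx : x ∈ M) (hy : y ∈ M) :
    ‖f (update a i x) - f (update a i y)‖ ≤ C * (‖x - y‖ * ∏ j ∈ Finset.univ.erase i, ‖a j‖) := by
  rw [← hf.map_sub ha i hx hy]
  refine (hf.bound _ (ha.update i (sub_mem hx hy))).trans_eq ?_
  rw [← Finset.mul_prod_erase _ _ (Finset.mem_univ i), Function.update_self]
  congr 2
  exact Finset.prod_congr rfl fun j hj => by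
    rw [Function.update_of_ne (Finset.ne_of_mem_erase hj)]

end Vale.Agent.P082
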