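import Vale.Agent.P082.F.Goals
import Vale.Agent.P082.F.Basic
import Vale.Agent.P082.Defs
import Vale.Agent.P104.Patch.Dixmier

/-!
# Cochains as total functions and as continuous multilinear maps
-/

noncomputable section

namespace Vale.Agent.P082.F

set_option linter.unusedSectionVars false

open Function (update)
open Vale.Agent.P104.Patch (Alg)

universe u

variable {H : Type u} [NormedAddCommGroup H] [InnerProductSpace ℂ H] [CompleteSpace H]
variable {M : VonNeumannAlgebra H} {k : ℕ} {C : ℝ}

open Classical in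
/-- The total function of a cochain. -/
def toCoch (f : Cochain (Alg M) k) : Coch H k := fun a =>
  if h : ∀ i, a i ∈ M then (f (fun i => (⟨a i, h i⟩ : Alg M)) : H →L[ℂ] H) else 0

lemma toCoch_apply (f : Cochain (Alg M) k) {a : Fin k → (H →L[ℂ] H)} (ha : ∀ i, a i ∈ M) :
    toCoch f a = (f (fun i => (⟨a i, ha i⟩ : Alg M)) : H →L[ℂ] H) :=
  dif_pos ha

lemma toCoch_coe (f : Cochain (Alg M) k) (a : Fin k → Alg M) :
    toCoch f (fun i => (a i : H →L[ℂ] H)) = (f a : H →L[ℂ] H) :=
  toCoch_apply f fun i => (a i).2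

lemma coe_update {k : ℕ} (a : Fin k → Alg M) (i : Fin k) (x : Alg M) :
    (fun j => ((update a i x) j : H →L[ℂ] H))
      = update (fun j => (a j : H →L[ℂ] H)) i (x : H →L[ℂ] H) :=
  funext fun j => Function.apply_update (fun _ (t : Alg M) => (t : H →L[ℂ] H)) a i x j

lemma isCochain_toCoch (f : Cochain (Alg M) k) : IsCochain M (toCoch f) ‖f‖ where
  mem a ha := by rw [toCoch_apply f ha]; exact Subtype.property _
  map_add a ha i x hx y hy := by
    let a' : Fin k → Alg M := fun j => ⟨a j, ha j⟩
    have key : ∀ (t : H →L[ℂ] H) (ht : t ∈ M), update a i t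
        = fun j => ((update a' i (⟨t, ht⟩ : Alg M)) j : H →L[ℂ] H) := fun t ht => by
      rw [coe_update]
    rw [key _ (add_mem hx hy), key _ hx, key _ hy, toCoch_coe, toCoch_coe, toCoch_coe,
      show (⟨x + y, add_mem hx hy⟩ : Alg M) = ⟨x, hx⟩ + ⟨y, hy⟩ from rfl, f.map_update_add]
    rfl
  map_smul a ha i c x hx := by
    let a' : Fin k → Alg M := fun j => ⟨a j, ha j⟩
    have key : ∀ (t : H →L[ℂ] H) (ht : t ∈ M), update a i t
        = fun j => ((update a' i (⟨t, ht⟩ : Alg M)) j : H →L[ℂ] H) := fun t ht => by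
      rw [coe_update]
    rw [key _ (mem_smul c hx), key _ hx, toCoch_coe, toCoch_coe,
      show (⟨c • x, mem_smul c hx⟩ : Alg M) = c • (⟨x, hx⟩ : Alg M) from rfl, f.map_update_smul]
    rfl
  bound a ha := by
    rw [toCoch_apply f ha]
    exact f.le_opNorm fun i => (⟨a i, ha i⟩ : Alg M)

/-- The continuous multilinear map of a bounded cochain. -/
def ofCoch {g : Coch H k} (hg : IsCochain M g C) : Cochain (Alg M) k :=
  MultilinearMap.mkContinuous
    { toFun := fun a => (⟨g (fun i => (a i : H →L[ℂ] H)), hg.mem _ fun i => (a i).2⟩ : Alg M)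
      map_update_add' := fun {d} a i x y => by
        obtain rfl : d = fun p q => instDecidableEqFin k p q := Subsingleton.elim _ _
        refine Subtype.ext ?_
        change g _ = g _ + g _
        rw [coe_update, coe_update, coe_update]
        exact hg.map_add _ (fun j => (a j).2) i _ x.2 _ y.2
      map_update_smul' := fun {d} a i c x => by
        obtain rfl : d = fun p q => instDecidableEqFin k p q := Subsingleton.elim _ _
        refine Subtype.ext ?_
        change g _ = c • g _
        rw [coe_update, coe_update]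
        exact hg.map_smul _ (fun j => (a j).2) i c _ x.2 }
    C fun a => hg.bound _ fun i => (a i).2

lemma coe_ofCoch {g : Coch H k} (hg : IsCochain M g C) (a : Fin k → Alg M) :
    (ofCoch hg a : H →L[ℂ] H) = g (fun i => (a i : H →L[ℂ] H)) := rfl

lemma norm_ofCoch_le {g : Coch H k} (hg : IsCochain M g C) (hC : 0 ≤ C) : ‖ofCoch hg‖ ≤ C :=
  MultilinearMap.mkContinuous_norm_le _ hC _

lemma coe_contract (j : Fin k) (a : Fin (k + 1) → Alg M) :
    (fun i => ((contract j a i : Alg M) : H →L[ℂ] H))
      = Fin.contractNth j.castSucc (· * ·) (fun i => (a i : H →L[ℂ] H)) := by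
  funext i
  rcases lt_trichotomy i j with h | h | h
  · rw [Fin.contractNth_apply_of_lt _ _ _ _ (by simpa using h)]
    simp [contract, h]
  · rw [Fin.contractNth_apply_of_eq _ _ _ _ (by simpa using congrArg Fin.val h)]
    simp [contract, h]
  · rw [Fin.contractNth_apply_of_gt _ _ _ _ (by simpa using h)]
    simp [contract, h.not_gt, h.ne']

/-- The two differentials agree. -/
lemma hd_toCoch (f : Cochain (Alg M) k) (a : Fin (k + 1) → Alg M) :
    hd (toCoch f) (fun i => (a i : H →L[ℂ] H)) = ((dHoch f a : Alg M) : H →L[ℂ] H) := by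
  have e1 : ∀ j : Fin k, toCoch f (Fin.contractNth j.castSucc (· * ·) fun i => (a i : H →L[ℂ] H))
      = ((f (contract j a) : Alg M) : H →L[ℂ] H) := fun j => by rw [← coe_contract, toCoch_coe]
  rw [hd_apply]
  simp only [dHoch, dPi, id_eq, e1]
  rw [show Fin.tail (fun i => (a i : H →L[ℂ] H)) = fun i => (a i.succ : H →L[ℂ] H) from rfl,
    show Fin.init (fun i => (a i : H →L[ℂ] H)) = fun i => (a i.castSucc : H →L[ℂ] H) from rfl,
    toCoch_coe, toCoch_coe]
  push_cast
  simp only [← Int.cast_smul_eq_zsmul ℂ, Int.cast_pow, Int.cast_neg, Int.cast_one]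

lemma isCocycle_toCoch {f : Cochain (Alg M) k} (hf : ∀ a, dHoch f a = 0) :
    IsCocycle M (toCoch f) := fun a ha => by
  have := hd_toCoch f fun i => (⟨a i, ha i⟩ : Alg M)
  rw [hf] at this
  exact this

lemma eqOn_toCoch_ofCoch {g : Coch H k} (hg : IsCochain M g C) :
    EqOn M (toCoch (ofCoch hg)) g := fun a ha => by
  rw [toCoch_apply _ ha, coe_ofCoch]

lemma coe_dHoch_ofCoch {g : Coch H k} (hg : IsCochain M g C) (a : Fin (k + 1) → Alg M) :
    ((dHoch (ofCoch hg) a : Alg M) : H →L[ℂ] H) = hd g (fun i => (a i : H →L[ℂ] H)) := by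
  rw [← hd_toCoch]
  exact (eqOn_toCoch_ofCoch hg).hd _ fun i => (a i).2

end Vale.Agent.P082.F
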