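import Vale.Agent.P082.Cochain

/-!
# Goals of the properly infinite part

Each goal is a closed proposition, proved in its own file.
-/

namespace Vale.Agent.P082.F

open Filter Topology
open scoped InnerProductSpace

universe u

/-- A cocycle completely bounded in the first argument is a coboundary (`CB/Main.lean`). -/
def CBVanishGoal : Prop :=
  ∀ (H : Type u) [NormedAddCommGroup H] [InnerProductSpace ℂ H] [CompleteSpace H]
    (M : VonNeumannAlgebra H) (k : ℕ) (f : Coch H (k + 1)) (B C : ℝ), 0 ≤ C →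
    IsCochain M f B → IsCocycle M f → CBFirst M f C →
    ∃ h : Coch H k, IsCochain M h C ∧ EqOn M (hd h) f

/-- Replacing a cocycle by its average over the corners of finitely many isometries costs a
coboundary; the average has the same bound and is bimodular for every element permuting the
family from the right (`F/Pull.lean`). -/
def PullGoal : Prop :=
  ∀ (H : Type u) [NormedAddCommGroup H] [InnerProductSpace ℂ H] [CompleteSpace H]
    (M : VonNeumannAlgebra H) (k : ℕ) (f : Coch H (k + 1)) (C : ℝ) (ι : Type) [Fintype ι]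
    [Nonempty ι] (u : ι → (H →L[ℂ] H)), 0 ≤ C → IsCochain M f C → IsCocycle M f →
    (∀ t, u t ∈ M) → (∀ t, star (u t) * u t = 1) →
    IsCochain M (pull u f) C ∧
      (∃ h : Coch H k, IsCochain M h (((k : ℝ) + 1) * C) ∧ EqOn M (hd h) (f - pull u f)) ∧
      ∀ v ∈ M, v * star v = 1 → (∃ σ : Equiv.Perm ι, ∀ t, u t * v = u (σ t)) →
        IsBimodular M (pull u f) v

/-- Bounded families of cochains have pointwise weak limits along an ultrafilter, and the
differential passes to the limit (`F/Limit.lean`). -/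
def LimitGoal : Prop :=
  ∀ (H : Type u) [NormedAddCommGroup H] [InnerProductSpace ℂ H] [CompleteSpace H]
    (M : VonNeumannAlgebra H) (k : ℕ) (ι : Type u) (l : Filter ι) [l.NeBot] (h : ι → Coch H k)
    (B : ℝ), 0 ≤ B → (∀ i, IsCochain M (h i) B) →
    ∃ (U : Ultrafilter ι) (g : Coch H k), ↑U ≤ l ∧ IsCochain M g B ∧
      (∀ a, Args M a → ∀ x y : H,
        Tendsto (fun i => ⟪x, h i a y⟫_ℂ) ↑U (𝓝 ⟪x, g a y⟫_ℂ)) ∧
      ∀ a, Args M a → ∀ x y : H,
        Tendsto (fun i => ⟪x, hd (h i) a y⟫_ℂ) ↑U (𝓝 ⟪x, hd g a y⟫_ℂ)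

/-- Algebras with two isometries with orthogonal ranges (`F/Halvable.lean`). -/
def HalvableGoal : Prop :=
  ∀ k : ℕ, ∃ K : ℝ, 0 ≤ K ∧
    ∀ (H : Type u) [NormedAddCommGroup H] [InnerProductSpace ℂ H] [CompleteSpace H]
      (M : VonNeumannAlgebra H) (s t : H →L[ℂ] H), s ∈ M → t ∈ M → star s * s = 1 →
      star t * t = 1 → star s * t = 0 → Vanish M k K

end Vale.Agent.P082.F
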