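import Vale.Agent.P082.F.Basic

/-!
# Signed permutations of finitely many isometries with orthogonal ranges

`sperm w t` is the unitary permuting the ranges of the `w i` with signs and fixing the rest. A
cochain bimodular for all of them is bimodular for every `w i * star (w j)`.
-/

namespace Vale.Agent.P082.F

set_option linter.unusedSectionVars false

open Function (update)

universe u

variable {H : Type u} [NormedAddCommGroup H] [InnerProductSpace ℂ H] [CompleteSpace H]
variable {M : VonNeumannAlgebra H} {k n : ℕ} {g : Coch H (k + 1)} {C : ℝ}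

lemma isBimodular_sub (hg : IsCochain M g C) {v v' : H →L[ℂ] H} (hv : v ∈ M) (hv' : v' ∈ M)
    (h : IsBimodular M g v) (h' : IsBimodular M g v') : IsBimodular M g (v - v') where
  left a ha := by
    rw [sub_mul, hg.map_sub ha 0 (mul_mem hv (ha 0)) (mul_mem hv' (ha 0)), h.left a ha,
      h'.left a ha, sub_mul]
  shift a ha i := by
    rw [mul_sub, sub_mul, hg.map_sub ha _ (mul_mem (ha _) hv) (mul_mem (ha _) hv'),
      hg.map_sub ha _ (mul_mem hv (ha _)) (mul_mem hv' (ha _)), h.shift a ha i, h'.shift a ha i]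
  right a ha := by
    rw [mul_sub, hg.map_sub ha _ (mul_mem (ha _) hv) (mul_mem (ha _) hv'), h.right a ha,
      h'.right a ha, mul_sub]

lemma isBimodular_smul (hg : IsCochain M g C) (c : ℂ) {v : H →L[ℂ] H} (hv : v ∈ M)
    (h : IsBimodular M g v) : IsBimodular M g (c • v) where
  left a ha := by
    rw [smul_mul_assoc, hg.map_smul a ha 0 c _ (mul_mem hv (ha 0)), h.left a ha, smul_mul_assoc]
  shift a ha i := by
    rw [mul_smul_comm, smul_mul_assoc, hg.map_smul a ha _ c _ (mul_mem (ha _) hv),
      hg.map_smul a ha _ c _ (mul_mem hv (ha _)), h.shift a ha i]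
  right a ha := by
    rw [mul_smul_comm, hg.map_smul a ha _ c _ (mul_mem (ha _) hv), h.right a ha, mul_smul_comm]

/-- Isometries with orthogonal ranges. -/
structure IsFamily (M : VonNeumannAlgebra H) (w : Fin n → (H →L[ℂ] H)) : Prop where
  mem : ∀ i, w i ∈ M
  star_mul : ∀ i j, star (w i) * w j = if i = j then 1 else 0

/-- The unitary moving the range of `w i` to that of `w (t.1 i)` with sign `t.2 i`. -/
noncomputable def sperm (w : Fin n → (H →L[ℂ] H)) (t : Equiv.Perm (Fin n) × (Fin n → ℤˣ)) : H →L[ℂ] H :=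
  (∑ i, (((t.2 i : ℤˣ) : ℤ) : ℂ) • (w (t.1 i) * star (w i))) + (1 - ∑ i, w i * star (w i))

variable {w : Fin n → (H →L[ℂ] H)}

lemma mem_sperm (hw : IsFamily M w) (t : Equiv.Perm (Fin n) × (Fin n → ℤˣ)) : sperm w t ∈ M :=
  add_mem (sum_mem fun i _ => mem_smul _ (mul_mem (hw.mem _) (star_mem (hw.mem i))))
    (sub_mem (one_mem M) (sum_mem fun i _ => mul_mem (hw.mem i) (star_mem (hw.mem i))))

lemma unit_mul_unit (hw : IsFamily M w) (i j p q : Fin n) :
    w i * star (w j) * (w p * star (w q)) = if j = p then w i * star (w q) else 0 := by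
  rw [mul_assoc, ← mul_assoc (star (w j)), hw.star_mul]
  split_ifs <;> simp

lemma sperm_mul (hw : IsFamily M w) (s t : Equiv.Perm (Fin n) × (Fin n → ℤˣ)) :
    sperm w s * sperm w t = sperm w (s.1 * t.1, fun i => s.2 (t.1 i) * t.2 i) := by
  have hP1 : ∀ p q, (∑ i, w i * star (w i)) * (w p * star (w q)) = w p * star (w q) := fun p q => by
    rw [Finset.sum_mul, Finset.sum_eq_single p (fun i _ hi => by rw [unit_mul_unit hw, if_neg hi])
      (by simp), unit_mul_unit hw, if_pos rfl]
  have hP2 : ∀ p q, w p * star (w q) * (∑ i, w i * star (w i)) = w p * star (w q) := fun p q => by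
    rw [Finset.mul_sum, Finset.sum_eq_single q
      (fun i _ hi => by rw [unit_mul_unit hw, if_neg (Ne.symm hi)]) (by simp),
      unit_mul_unit hw, if_pos rfl]
  have hPP : (∑ i, w i * star (w i)) * (∑ i, w i * star (w i)) = ∑ i, w i * star (w i) := by
    rw [Finset.mul_sum]
    exact Finset.sum_congr rfl fun i _ => hP1 i i
  have hQ1 : ∀ p q, (1 - ∑ i, w i * star (w i)) * (w p * star (w q)) = 0 := fun p q => by
    rw [sub_mul, one_mul, hP1, sub_self]
  have hQ2 : ∀ p q, w p * star (w q) * (1 - ∑ i, w i * star (w i)) = 0 := fun p q => by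
    rw [mul_sub, mul_one, hP2, sub_self]
  have hQQ : (1 - ∑ i, w i * star (w i)) * (1 - ∑ i, w i * star (w i))
      = 1 - ∑ i, w i * star (w i) := by
    rw [sub_mul, one_mul, mul_sub, mul_one, hPP, sub_self, sub_zero]
  simp only [sperm, add_mul, mul_add, hQQ, Finset.sum_mul, Finset.mul_sum, smul_mul_assoc,
    mul_smul_comm, hQ1, hQ2, smul_zero, Finset.sum_const_zero, add_zero, zero_add]
  congr 1
  refine Finset.sum_congr rfl fun i _ => ?_
  rw [Finset.sum_eq_single (t.1 i) (fun j _ hj => by rw [unit_mul_unit hw, if_neg hj]; simp)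
    (by simp), unit_mul_unit hw, if_pos rfl, smul_smul]
  simp [mul_comm]

lemma sperm_one : sperm w 1 = 1 := by
  simp [sperm]

lemma star_sperm_mul (hw : IsFamily M w) (t : Equiv.Perm (Fin n) × (Fin n → ℤˣ)) :
    star (sperm w t) * sperm w t = 1 ∧ sperm w t * star (sperm w t) = 1 := by
  have e : star (sperm w t) = sperm w (t.1⁻¹, fun i => t.2 (t.1⁻¹ i)) := by
    simp only [sperm, star_add, star_sub, star_one, star_sum, star_smul, StarMul.star_mul, star_star]
    congr 1
    refine (Equiv.sum_comp t.1⁻¹ _).symm.trans (Finset.sum_congr rfl fun i _ => ?_)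
    simp
  constructor <;> rw [e, sperm_mul hw] <;>
    refine (congrArg (sperm w) ?_).trans sperm_one <;> refine Prod.ext (by simp) (funext fun i => ?_)
  all_goals simp

/-- Right multiplication by a signed permutation permutes the family. -/
lemma exists_perm_sperm (hw : IsFamily M w) (t : Equiv.Perm (Fin n) × (Fin n → ℤˣ)) :
    ∃ σ : Equiv.Perm (Equiv.Perm (Fin n) × (Fin n → ℤˣ)),
      ∀ s, sperm w s * sperm w t = sperm w (σ s) := by
  refine ⟨⟨fun s => (s.1 * t.1, fun i => s.2 (t.1 i) * t.2 i),
    fun s => (s.1 * t.1⁻¹, fun i => s.2 (t.1⁻¹ i) * (t.2 (t.1⁻¹ i))⁻¹), fun s => ?_, fun s => ?_⟩,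
    fun s => sperm_mul hw s t⟩
  · refine Prod.ext (by simp) (funext fun i => ?_)
    simp [mul_assoc]
  · refine Prod.ext (by simp [mul_assoc]) (funext fun i => ?_)
    simp [mul_assoc]

/-- Bimodular for the signed permutations gives bimodular for the matrix units. -/
lemma isBimodular_unit (hw : IsFamily M w) (hg : IsCochain M g C)
    (h : ∀ t, IsBimodular M g (sperm w t)) (i j : Fin n) :
    IsBimodular M g (w i * star (w j)) := by
  classical
  set σ : Equiv.Perm (Fin n) := Equiv.swap i j with hσ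
  set ε : Fin n → ℤˣ := Function.update 1 j (-1) with hε
  have e : w i * star (w j) = (2⁻¹ : ℂ) • (sperm w (σ, 1) - sperm w (σ, ε)) := by
    simp only [sperm, add_sub_add_right_eq_sub, ← Finset.sum_sub_distrib, ← sub_smul]
    rw [Finset.sum_eq_single j (fun l _ hl => by simp [hε, hl]) (by simp), smul_smul]
    norm_num [hε, hσ]
  rw [e]
  exact isBimodular_smul hg _ (sub_mem (mem_sperm hw _) (mem_sperm hw _))
    (isBimodular_sub hg (mem_sperm hw _) (mem_sperm hw _) (h _) (h _))

end Vale.Agent.P082.F
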