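import Vale.Agent.P082.F.Goals
import Vale.Agent.P082.F.Signed

/-!
# Two isometries with orthogonal ranges

Averaging over signed permutations of `n` isometries and compressing by the first one gives a
cohomologous cochain whose first argument tolerates `n` by `n` matrices. A weak limit in `n` is
completely bounded in the first argument, hence a coboundary.
-/

namespace Vale.Agent.P082.F

set_option linter.unusedSectionVars false

open Function (update)
open Filter Topology
open scoped InnerProductSpace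

universe u

variable {H : Type u} [NormedAddCommGroup H] [InnerProductSpace ℂ H] [CompleteSpace H]
variable {M : VonNeumannAlgebra H} {k n : ℕ} {g : Coch H (k + 1)} {C : ℝ}
variable {w : Fin n → (H →L[ℂ] H)}

lemma norm_le_one_of_isometry {u : H →L[ℂ] H} (hu : star u * u = 1) : ‖u‖ ≤ 1 := by
  have h2 : ‖u‖ * ‖u‖ ≤ 1 := by
    rw [← CStarRing.norm_star_mul_self, hu]
    exact ContinuousLinearMap.norm_id_le
  nlinarith [norm_nonneg u]

/-- An element commuting with the later arguments leaves through the right. -/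
lemma move_right {v : H →L[ℂ] H} (h : IsBimodular M g v) {a : Fin (k + 1) → (H →L[ℂ] H)}
    (ha : Args M a) (hc : ∀ i : Fin k, a i.succ * v = v * a i.succ) :
    g (update a 0 (a 0 * v)) = g a * v := by
  rw [← h.right a ha]
  suffices ∀ j, g (update a j (a j * v)) = g (update a 0 (a 0 * v)) from (this _).symm
  intro j
  induction j using Fin.induction with
  | zero => rfl
  | succ j ih => rw [hc, ← h.shift a ha j, ih]

/-- An element absorbed by the arguments on the right cuts down the later arguments. -/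
lemma absorb {v : H →L[ℂ] H} (h : IsBimodular M g v) {a b : Fin (k + 1) → (H →L[ℂ] H)}
    (ha : Args M a) (hb : Args M b) (h0 : b 0 = a 0) (hr : ∀ i, a i * v = a i)
    (hl : ∀ i : Fin k, v * b i.succ = a i.succ) : g b = g a := by
  let c : Fin (k + 1) → Fin (k + 1) → (H →L[ℂ] H) := fun j i => if i ≤ j then a i else b i
  have hcM : ∀ j, Args M (c j) := fun j i => by
    simp only [c]
    split_ifs
    exacts [ha i, hb i]
  have hstep : ∀ j : Fin k, g (c j.succ) = g (c j.castSucc) := fun j => by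
    have e1 : c j.castSucc j.castSucc * v = c j.castSucc j.castSucc := by simp [c, hr]
    have e2 : update (c j.castSucc) j.succ (v * c j.castSucc j.succ) = c j.succ := by
      funext i
      rcases eq_or_ne i j.succ with rfl | hi
      · simp [c, hl]
      · rw [Function.update_of_ne hi]
        simp only [c]
        refine if_congr ?_ rfl rfl
        have hv : (i : ℕ) ≠ (j : ℕ) + 1 := fun h => hi (Fin.ext (by simpa using h))
        simp only [Fin.le_def, Fin.val_castSucc, Fin.val_succ]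
        omega
    rw [← e2, ← h.shift (c j.castSucc) (hcM _) j, e1, Function.update_eq_self]
  have hall : ∀ j, g (c j) = g (c 0) := fun j => by
    induction j using Fin.induction with
    | zero => rfl
    | succ j ih => rw [hstep, ih]
  have e0 : c 0 = b := funext fun i => by
    simp only [c]
    split_ifs with hi
    · rw [Fin.le_zero_iff.1 hi, h0]
    · rfl
  have el : c (Fin.last k) = a := funext fun i => by simp [c, Fin.le_last]
  rw [← el, ← e0]
  exact (hall _).symm

lemma inner_sum_isometries (hw : IsFamily M w) (u v : Fin n → H) :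
    ⟪∑ p, w p (u p), ∑ p, w p (v p)⟫_ℂ = ∑ p, ⟪u p, v p⟫_ℂ := by
  simp only [sum_inner, inner_sum]
  refine Finset.sum_congr rfl fun p _ => ?_
  rw [Finset.sum_eq_single p (fun q _ hq => ?_) (by simp)]
  all_goals rw [← ContinuousLinearMap.adjoint_inner_right, ← ContinuousLinearMap.star_eq_adjoint,
    ← mul_apply_eq_comp, hw.star_mul]
  · simp
  · simp [hq]

lemma norm_sum_isometries_sq (hw : IsFamily M w) (u : Fin n → H) :
    ‖∑ p, w p (u p)‖ ^ 2 = ∑ p, ‖u p‖ ^ 2 := by
  have h2 := congrArg (RCLike.re : ℂ → ℝ) (inner_sum_isometries hw u u)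
  simpa [inner_self_eq_norm_sq_to_K, ← Complex.ofReal_pow] using h2

lemma sum_star_sq_le (hw : IsFamily M w) (v : H) : ∑ q, ‖star (w q) v‖ ^ 2 ≤ ‖v‖ ^ 2 := by
  have h1 : RCLike.re ⟪v, ∑ q, w q (star (w q) v)⟫_ℂ = ∑ q, ‖star (w q) v‖ ^ 2 := by
    rw [inner_sum, map_sum]
    refine Finset.sum_congr rfl fun q _ => ?_
    rw [← ContinuousLinearMap.adjoint_inner_left, ← ContinuousLinearMap.star_eq_adjoint]
    simp [← Complex.ofReal_pow]
  have h2 := norm_sub_sq (𝕜 := ℂ) v (∑ q, w q (star (w q) v))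
  rw [h1, norm_sum_isometries_sq hw] at h2
  have h3 := sq_nonneg ‖v - ∑ q, w q (star (w q) v)‖
  linarith

/-- A diagonal copy of an element along the family. -/
noncomputable def diagCopy (w : Fin n → (H →L[ℂ] H)) (y : H →L[ℂ] H) : H →L[ℂ] H :=
  ∑ i, w i * y * star (w i)

lemma mem_diagCopy (hw : IsFamily M w) {y : H →L[ℂ] H} (hy : y ∈ M) : diagCopy w y ∈ M :=
  sum_mem fun i _ => mul_mem (mul_mem (hw.mem i) hy) (star_mem (hw.mem i))

lemma diagCopy_mul_unit (hw : IsFamily M w) (y : H →L[ℂ] H) (p q : Fin n) :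
    diagCopy w y * (w p * star (w q)) = w p * y * star (w q) ∧
      w p * star (w q) * diagCopy w y = w p * y * star (w q) := by
  simp only [diagCopy, Finset.sum_mul, Finset.mul_sum]
  constructor
  · rw [Finset.sum_eq_single p (fun i _ hi => ?_) (by simp)]
    all_goals rw [mul_assoc, ← mul_assoc (star (w _)), hw.star_mul]
    · simp
    · simp [hi]
  · rw [Finset.sum_eq_single q (fun i _ hi => ?_) (by simp)]
    all_goals rw [mul_assoc (w _) y, mul_assoc (w _), ← mul_assoc (star (w _)), hw.star_mul]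
    · simp [mul_assoc]
    · simp [Ne.symm hi]

lemma norm_diagCopy_le (hw : IsFamily M w) (y : H →L[ℂ] H) : ‖diagCopy w y‖ ≤ ‖y‖ := by
  refine ContinuousLinearMap.opNorm_le_bound _ (norm_nonneg y) fun v => ?_
  rw [← sq_le_sq₀ (norm_nonneg _) (by positivity),
    show diagCopy w y v = ∑ i, w i (y (star (w i) v)) by simp [diagCopy],
    norm_sum_isometries_sq hw, mul_pow]
  calc ∑ i, ‖y (star (w i) v)‖ ^ 2 ≤ ∑ i, ‖y‖ ^ 2 * ‖star (w i) v‖ ^ 2 :=
        Finset.sum_le_sum fun i _ => by
          rw [← mul_pow]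
          exact pow_le_pow_left₀ (norm_nonneg _) (y.le_opNorm _) 2
    _ ≤ ‖y‖ ^ 2 * ‖v‖ ^ 2 := by
        rw [← Finset.mul_sum]
        exact mul_le_mul_of_nonneg_left (sum_star_sq_le hw v) (sq_nonneg _)

/-- Compressed by one isometry, a cochain bimodular for the units tolerates matrices no larger
than the family. -/
theorem compress_bound (hw : IsFamily M w) (hC : 0 ≤ C) (hg : IsCochain M g C)
    (h : ∀ i j, IsBimodular M g (w i * star (w j))) (o : Fin n)
    {y : Fin k → (H →L[ℂ] H)} (hy : Args M y) {r d : ℕ} (hr : r ≤ n) (hd : d ≤ n)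
    (X : Fin r → Fin d → (H →L[ℂ] H)) (hX : ∀ p q, X p q ∈ M) (hXc : IsMatContraction X)
    (e : Fin d → H) :
    ∑ p, ‖∑ q, (star (w o) * g (fun i => w o * (Fin.cons (X p q) y : Fin (k + 1) → (H →L[ℂ] H)) i
        * star (w o)) * w o) (e q)‖ ^ 2 ≤ (C * ∏ i, ‖y i‖) ^ 2 * ∑ q, ‖e q‖ ^ 2 := by
  set wr : Fin r → (H →L[ℂ] H) := fun p => w (Fin.castLE hr p)
  set wd : Fin d → (H →L[ℂ] H) := fun q => w (Fin.castLE hd q)
  have hwr : IsFamily M wr := ⟨fun i => hw.mem _, fun i j => by
    rw [hw.star_mul]; exact if_congr (Fin.castLE_inj) rfl rfl⟩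
  have hwd : IsFamily M wd := ⟨fun i => hw.mem _, fun i j => by
    rw [hw.star_mul]; exact if_congr (Fin.castLE_inj) rfl rfl⟩
  set X' : H →L[ℂ] H := ∑ p, ∑ q, wr p * X p q * star (wd q) with hX'
  have hX'M : X' ∈ M := sum_mem fun p _ => sum_mem fun q _ =>
    mul_mem (mul_mem (hwr.mem p) (hX p q)) (star_mem (hwd.mem q))
  have hX'n : ‖X'‖ ≤ 1 := by
    refine ContinuousLinearMap.opNorm_le_bound _ zero_le_one fun v => ?_
    rw [one_mul, ← sq_le_sq₀ (norm_nonneg _) (norm_nonneg _),
      show X' v = ∑ p, wr p (∑ q, X p q (star (wd q) v)) by simp [hX', map_sum],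
      norm_sum_isometries_sq hwr]
    exact (hXc _).trans (sum_star_sq_le hwd v)
  set b : Fin (k + 1) → (H →L[ℂ] H) := Fin.cons X' (fun i => diagCopy w (y i))
  have hb : Args M b := Args.cons (fun i => mem_diagCopy hw (hy i)) hX'M
  have hoo : star (w o) * w o = 1 := by simp [hw.star_mul]
  have hentry : ∀ p q, star (w o) * g (fun i => w o
      * (Fin.cons (X p q) y : Fin (k + 1) → (H →L[ℂ] H)) i * star (w o)) * w o
        = star (wr p) * g b * wd q := fun p q => by
    set a : Fin (k + 1) → (H →L[ℂ] H) :=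
      fun i => w o * (Fin.cons (X p q) y : Fin (k + 1) → (H →L[ℂ] H)) i * star (w o) with ha_def
    have hcons : Args M (Fin.cons (X p q) y : Fin (k + 1) → (H →L[ℂ] H)) :=
      Args.cons hy (hX p q)
    have ha : Args M a := fun i => mul_mem (mul_mem (hw.mem o) (hcons i)) (star_mem (hw.mem o))
    have hx : w o * star (wr p) * (X' * (wd q * star (w o))) = w o * X p q * star (w o) := by
      have e1 : X' * (wd q * star (w o)) = ∑ p', wr p' * X p' q * star (w o) := by
        rw [hX', Finset.sum_mul]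
        refine Finset.sum_congr rfl fun p' _ => ?_
        rw [Finset.sum_mul, Finset.sum_eq_single q (fun i _ hi => ?_) (by simp)]
        all_goals rw [mul_assoc (wr p' * _), ← mul_assoc (star (wd _)), hwd.star_mul]
        · simp
        · simp [hi]
      rw [e1, Finset.mul_sum, Finset.sum_eq_single p (fun i _ hi => ?_) (by simp)]
      all_goals rw [mul_assoc (w o), mul_assoc (wr _), ← mul_assoc (star (wr p)), hwr.star_mul]
      · simp [mul_assoc]
      · simp [Ne.symm hi]
    have hv : w o * star (wr p) ∈ M := mul_mem (hw.mem o) (star_mem (hwr.mem p))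
    have hv' : wd q * star (w o) ∈ M := mul_mem (hwd.mem q) (star_mem (hw.mem o))
    have h1 : g (update b 0 (b 0 * (wd q * star (w o)))) = g b * (wd q * star (w o)) :=
      move_right (h _ _) hb fun i => by
        simp only [b, Fin.cons_succ]
        rw [(diagCopy_mul_unit hw (y i) _ o).1, (diagCopy_mul_unit hw (y i) _ o).2]
    have hb1 : Args M (update b 0 (b 0 * (wd q * star (w o)))) := hb.update 0 (mul_mem (hb 0) hv')
    have hlft := (h o (Fin.castLE hr p)).left _ hb1
    rw [Function.update_self, Function.update_idem, h1] at hlft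
    have h2 : g (update b 0 (a 0)) = g a := by
      refine absorb (h o o) ha (hb.update 0 (ha 0)) (Function.update_self _ _ _)
        (fun i => ?_) fun i => ?_
      · simp only [ha_def, mul_assoc]
        rw [← mul_assoc (star (w o)), hoo, one_mul]
      · rw [Function.update_of_ne (Fin.succ_ne_zero i)]
        simp only [b, ha_def, Fin.cons_succ]
        exact (diagCopy_mul_unit hw (y i) o o).2
    have h3 : g a = w o * star (wr p) * (g b * (wd q * star (w o))) := by
      rw [← h2, ← hlft]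
      congr 2
      simp only [b, ha_def, Fin.cons_zero]
      exact hx.symm
    rw [h3]
    simp only [mul_assoc, hoo, mul_one]
    rw [← mul_assoc (star (w o)), hoo, one_mul]
  simp only [hentry, mul_apply_eq_comp]
  have hgb : ‖g b‖ ≤ C * ∏ i, ‖y i‖ := by
    refine (hg.bound b hb).trans (mul_le_mul_of_nonneg_left ?_ hC)
    rw [Fin.prod_univ_succ]
    simp only [b, Fin.cons_zero, Fin.cons_succ]
    refine le_trans (mul_le_mul hX'n (Finset.prod_le_prod (fun i _ => norm_nonneg _)
      fun i _ => norm_diagCopy_le hw (y i)) (Finset.prod_nonneg fun i _ => norm_nonneg _)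
      zero_le_one) (le_of_eq (one_mul _))
  calc ∑ p, ‖∑ q, star (wr p) (g b (wd q (e q)))‖ ^ 2
      = ∑ p, ‖star (wr p) (g b (∑ q, wd q (e q)))‖ ^ 2 := by simp only [map_sum]
    _ ≤ ‖g b (∑ q, wd q (e q))‖ ^ 2 := sum_star_sq_le hwr _
    _ ≤ (C * ∏ i, ‖y i‖) ^ 2 * ∑ q, ‖e q‖ ^ 2 := by
        rw [← norm_sum_isometries_sq hwd, ← mul_pow]
        exact pow_le_pow_left₀ (norm_nonneg _) ((g b).le_of_opNorm_le hgb _) 2

lemma isFamily_powers {s t : H →L[ℂ] H} (hs : s ∈ M) (ht : t ∈ M) (hss : star s * s = 1)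
    (htt : star t * t = 1) (hst : star s * t = 0) (n : ℕ) :
    IsFamily M (fun i : Fin n => t ^ (i : ℕ) * s) := by
  have hpow : ∀ i, star (t ^ i) * t ^ i = 1 := fun i => by
    induction i with
    | zero => simp
    | succ i ih => rw [pow_succ, star_mul, mul_assoc, ← mul_assoc (star (t ^ i)), ih, one_mul, htt]
  have hlt : ∀ i j, i < j → star (t ^ i * s) * (t ^ j * s) = 0 := fun i j hij => by
    obtain ⟨l, rfl⟩ := Nat.exists_eq_add_of_lt hij
    rw [add_assoc, pow_add, star_mul, mul_assoc (star s), mul_assoc (t ^ i),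
      ← mul_assoc (star (t ^ i)), hpow, one_mul, pow_succ', mul_assoc, ← mul_assoc, hst, zero_mul]
  refine ⟨fun i => mul_mem (pow_mem ht _) hs, fun i j => ?_⟩
  rcases lt_trichotomy (i : ℕ) j with h | h | h
  · rw [if_neg (fun e => h.ne (congrArg Fin.val e))]; exact hlt _ _ h
  · rw [if_pos (Fin.ext h), h, star_mul, mul_assoc, ← mul_assoc (star (t ^ (j : ℕ))), hpow, one_mul,
      hss]
  · rw [if_neg (fun e => h.ne' (congrArg Fin.val e))]
    simpa [star_mul, mul_assoc] using congrArg star (hlt _ _ h)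

lemma pull_unit (u : H →L[ℂ] H) (f : Coch H (k + 1)) (a : Fin (k + 1) → (H →L[ℂ] H)) :
    pull (fun _ : Unit => u) f a = star u * f (fun i => u * a i * star u) * u := by
  simp [pull]

/-- Finitely many matrices at a time, up to a coboundary. -/
lemma exists_compressed (hp : PullGoal.{u}) {f : Coch H (k + 1)} (hC : 0 ≤ C)
    (hf : IsCochain M f C) (hz : IsCocycle M f) (hw : IsFamily M w) (o : Fin n) :
    ∃ h : Coch H k, IsCochain M h (2 * ((k : ℝ) + 1) * C) ∧
      ∀ y : Fin k → (H →L[ℂ] H), Args M y → ∀ (r d : ℕ), r ≤ n → d ≤ n →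
        ∀ X : Fin r → Fin d → (H →L[ℂ] H), (∀ p q, X p q ∈ M) → IsMatContraction X →
          ∀ e : Fin d → H, ∑ p, ‖∑ q, (f - hd h) (Fin.cons (X p q) y) (e q)‖ ^ 2
            ≤ (C * ∏ i, ‖y i‖) ^ 2 * ∑ q, ‖e q‖ ^ 2 := by
  obtain ⟨hg, ⟨h₁, hh₁, he₁⟩, hbim⟩ := hp H M k f C _ (sperm w) hC hf hz
    (mem_sperm hw) fun t => (star_sperm_mul hw t).1
  set g := pull (sperm w) f
  have hbu : ∀ i j, IsBimodular M g (w i * star (w j)) :=
    isBimodular_unit hw hg fun t =>
      hbim _ (mem_sperm hw t) (star_sperm_mul hw t).2 (exists_perm_sperm hw t)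
  have e1 : EqOn M (f - hd h₁) g := fun a ha => by
    rw [Pi.sub_apply, he₁ a ha, Pi.sub_apply, sub_sub_cancel]
  obtain ⟨-, ⟨h₂, hh₂, he₂⟩, -⟩ := hp H M k g C Unit (fun _ => w o) hC hg
    ((hz.sub_hd h₁).congr e1) (fun _ => hw.mem o) fun _ => by simp [hw.star_mul]
  refine ⟨h₁ + h₂, (hh₁.add hh₂).mono (le_of_eq (by ring)), fun y hy r d hr hd X hX hXc e => ?_⟩
  refine le_trans (le_of_eq ?_) (compress_bound hw hC hg hbu o hy hr hd X hX hXc e)
  refine Finset.sum_congr rfl fun p _ => ?_
  congr 2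
  refine Finset.sum_congr rfl fun q _ => ?_
  have ha : Args M (Fin.cons (X p q) y : Fin (k + 1) → (H →L[ℂ] H)) := Args.cons hy (hX p q)
  rw [hd_add, Pi.sub_apply, Pi.add_apply, he₁ _ ha, he₂ _ ha, Pi.sub_apply, Pi.sub_apply,
    pull_unit]
  congr 1
  abel

/-- Every algebra with two isometries with orthogonal ranges has vanishing cohomology. -/
theorem halvable (hp : PullGoal.{u}) (hl : LimitGoal.{u}) (hcb : CBVanishGoal.{u}) :
    HalvableGoal.{u} := by
  intro k
  refine ⟨2 * ((k : ℝ) + 1) + 1, by positivity, ?_⟩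
  intro H _ _ _ M s t hs ht hss htt hst f C hC hf hz
  choose h hh hb using fun n : ULift.{u} ℕ =>
    exists_compressed hp hC hf hz (isFamily_powers hs ht hss htt hst (n.down + 1)) 0
  obtain ⟨U, h₀, hU, hh₀, -, hlim⟩ := hl H M k (ULift.{u} ℕ) (Filter.map ULift.up atTop) h
    (2 * ((k : ℝ) + 1) * C) (by positivity) hh
  set F := f - hd h₀ with hF
  have hcbF : CBFirst M F C := by
    intro y hy r d X hX hXc e
    set B := (C * ∏ i, ‖y i‖) ^ 2 * ∑ q, ‖e q‖ ^ 2
    set v : Fin r → H := fun p => ∑ q, F (Fin.cons (X p q) y) (e q)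
    set vn : ULift.{u} ℕ → Fin r → H := fun n p =>
      ∑ q, (f - hd (h n)) (Fin.cons (X p q) y) (e q)
    have hev : ∀ᶠ n in (U : Filter (ULift.{u} ℕ)), ∑ p, ‖vn n p‖ ^ 2 ≤ B := by
      refine Eventually.filter_mono hU ?_
      rw [Filter.eventually_map]
      filter_upwards [eventually_ge_atTop (max r d)] with n hn
      exact hb ⟨n⟩ y hy r d (by simp only; omega) (by simp only; omega) X hX hXc e
    have hten : Tendsto (fun n => ∑ p, RCLike.re ⟪v p, vn n p⟫_ℂ) U
        (𝓝 (∑ p, RCLike.re ⟪v p, v p⟫_ℂ)) := by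
      refine tendsto_finsetSum _ fun p _ => (RCLike.continuous_re.tendsto _).comp ?_
      simp only [vn, inner_sum]
      conv_rhs => rw [show v p = ∑ q, F (Fin.cons (X p q) y) (e q) from rfl]
      rw [inner_sum]
      refine tendsto_finsetSum _ fun q _ => ?_
      have hA : Args M (Fin.cons (X p q) y : Fin (k + 1) → (H →L[ℂ] H)) := Args.cons hy (hX p q)
      simp only [hF, Pi.sub_apply, sub_apply, inner_sub_right]
      exact tendsto_const_nhds.sub (hlim _ hA (v p) (e q))
    simp only [inner_self_eq_norm_sq] at hten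
    have hle : ∀ᶠ n in (U : Filter (ULift.{u} ℕ)),
        ∑ p, RCLike.re ⟪v p, vn n p⟫_ℂ ≤ (∑ p, ‖v p‖ ^ 2 + B) / 2 := by
      filter_upwards [hev] with n hn
      have : ∀ p, RCLike.re ⟪v p, vn n p⟫_ℂ ≤ (‖v p‖ ^ 2 + ‖vn n p‖ ^ 2) / 2 := fun p =>
        (re_inner_le_norm _ _).trans (by nlinarith [sq_nonneg (‖v p‖ - ‖vn n p‖)])
      calc ∑ p, RCLike.re ⟪v p, vn n p⟫_ℂ ≤ ∑ p, (‖v p‖ ^ 2 + ‖vn n p‖ ^ 2) / 2 :=
            Finset.sum_le_sum fun p _ => this p
        _ ≤ _ := by
            rw [← Finset.sum_div, Finset.sum_add_distrib]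
            linarith
    have := le_of_tendsto hten hle
    show ∑ p, ‖v p‖ ^ 2 ≤ B
    linarith
  obtain ⟨g, hg, hge⟩ := hcb H M k F _ C hC (hf.sub (hh₀.hd (by positivity))) (hz.sub_hd h₀) hcbF
  refine ⟨h₀ + g, (hh₀.add hg).mono (le_of_eq (by ring)), fun a ha => ?_⟩
  rw [hd_add, Pi.add_apply, hge a ha, hF, Pi.sub_apply, add_sub_cancel]

end Vale.Agent.P082.F
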