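import Vale.Agent.P082.Cochain

/-!
# The differential is linear and squares to zero
-/

namespace Vale.Agent.P082

set_option linter.unusedSectionVars false

universe u

variable {H : Type u} [NormedAddCommGroup H] [InnerProductSpace ℂ H] [CompleteSpace H]
variable {k : ℕ}

lemma hd_apply (f : Coch H k) (a : Fin (k + 1) → (H →L[ℂ] H)) :
    hd f a = a 0 * f (Fin.tail a)
      + ∑ j : Fin k, (-1 : ℂ) ^ ((j : ℕ) + 1) • f (Fin.contractNth j.castSucc (· * ·) a)
      + (-1 : ℂ) ^ (k + 1) • (f (Fin.init a) * a (Fin.last k)) := rfl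

lemma hd_add (f g : Coch H k) : hd (f + g) = hd f + hd g := by
  funext a
  simp only [hd_apply, Pi.add_apply, mul_add, add_mul, smul_add, Finset.sum_add_distrib]
  abel

lemma hd_smul (c : ℂ) (f : Coch H k) : hd (c • f) = c • hd f := by
  funext a
  simp only [hd_apply, Pi.smul_apply, mul_smul_comm, smul_mul_assoc, smul_add, Finset.smul_sum]
  exact congrArg₂ (· + ·) (congrArg₂ (· + ·) rfl (Finset.sum_congr rfl fun j _ => smul_comm _ _ _))
    (smul_comm _ _ _)

lemma hd_zero : hd (0 : Coch H k) = 0 := by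
  funext a
  simp [hd_apply]

lemma hd_neg (f : Coch H k) : hd (-f) = -hd f := by
  rw [← neg_one_smul ℂ f, hd_smul, neg_one_smul]

lemma hd_sub (f g : Coch H k) : hd (f - g) = hd f - hd g := by
  rw [sub_eq_add_neg, hd_add, hd_neg, ← sub_eq_add_neg]

lemma hd_sum {ι : Type*} (s : Finset ι) (f : ι → Coch H k) :
    hd (∑ i ∈ s, f i) = ∑ i ∈ s, hd (f i) :=
  by classical
    induction s using Finset.induction with
    | empty => simp [hd_zero]
    | insert i s his ih => rw [Finset.sum_insert his, Finset.sum_insert his, hd_add, ih]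

lemma contractNth_cons_zero (x : H →L[ℂ] H) (b : Fin (k + 1) → (H →L[ℂ] H)) :
    Fin.contractNth (0 : Fin (k + 2)) (· * ·) (Fin.cons x b : Fin (k + 2) → (H →L[ℂ] H))
      = (Fin.cons (x * b 0) (Fin.tail b) : Fin (k + 1) → (H →L[ℂ] H)) := by
  funext i
  cases i using Fin.cases with
  | zero => rw [Fin.contractNth_apply_of_eq _ _ _ _ rfl]; simp
  | succ i =>
    rw [Fin.contractNth_apply_of_gt _ _ _ _ (by simp)]
    simp [Fin.tail]

lemma contractNth_cons_succ (x : H →L[ℂ] H) (b : Fin (k + 1) → (H →L[ℂ] H)) (j : Fin k) :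
    Fin.contractNth j.succ.castSucc (· * ·) (Fin.cons x b : Fin (k + 2) → (H →L[ℂ] H))
      = (Fin.cons x (Fin.contractNth j.castSucc (· * ·) b) : Fin (k + 1) → (H →L[ℂ] H)) := by
  funext i
  cases i using Fin.cases with
  | zero => rw [Fin.contractNth_apply_of_lt _ _ _ _ (by simp)]; simp
  | succ i =>
    rcases lt_trichotomy (i : ℕ) j with h | h | h
    all_goals rw [Fin.cons_succ (α := fun _ => H →L[ℂ] H) x _ i]
    · rw [Fin.contractNth_apply_of_lt _ _ _ _ (by simpa using h),
        Fin.contractNth_apply_of_lt _ _ _ _ (by simpa using h)]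
      simp [← Fin.succ_castSucc]
    · rw [Fin.contractNth_apply_of_eq _ _ _ _ (by simpa using h),
        Fin.contractNth_apply_of_eq _ _ _ _ (by simpa using h)]
      simp [← Fin.succ_castSucc]
    · rw [Fin.contractNth_apply_of_gt _ _ _ _ (by simpa using h),
        Fin.contractNth_apply_of_gt _ _ _ _ (by simpa using h)]
      simp [← Fin.succ_castSucc]

lemma init_cons (x : H →L[ℂ] H) (b : Fin (k + 1) → (H →L[ℂ] H)) :
    Fin.init (Fin.cons x b : Fin (k + 2) → (H →L[ℂ] H))
      = (Fin.cons x (Fin.init b) : Fin (k + 1) → (H →L[ℂ] H)) := by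
  funext i
  cases i using Fin.cases with
  | zero => simp [Fin.init]
  | succ i => simp [Fin.init, ← Fin.succ_castSucc]

/-- The differential, expanded at a first argument. -/
lemma hd_cons (f : Coch H (k + 1)) (x : H →L[ℂ] H) (b : Fin (k + 1) → (H →L[ℂ] H)) :
    hd f (Fin.cons x b) = x * f b - f (Fin.cons (x * b 0) (Fin.tail b))
      + b 0 * f (Fin.cons x (Fin.tail b)) - hd (fun c => f (Fin.cons x c)) b := by
  simp only [hd_apply, Fin.sum_univ_succ, Fin.cons_zero, Fin.tail_cons, Fin.castSucc_zero,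
    contractNth_cons_zero, contractNth_cons_succ, init_cons, Fin.val_zero, Fin.val_succ,
    ← Fin.succ_last, Fin.cons_succ, pow_succ, pow_zero, one_mul, mul_neg, mul_one, neg_smul,
    one_smul, Finset.sum_neg_distrib, neg_neg]
  abel

lemma hd_left_mul (f : Coch H k) (x : H →L[ℂ] H) (b : Fin (k + 1) → (H →L[ℂ] H)) :
    hd (fun c => x * f c) b
      = b 0 * (x * f (Fin.tail b)) + x * hd f b - x * (b 0 * f (Fin.tail b)) := by
  simp only [hd_apply, mul_add, Finset.mul_sum, mul_smul_comm, mul_assoc]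
  abel

lemma hd_first_mul (f : Coch H (k + 1)) (x : H →L[ℂ] H) (b : Fin (k + 2) → (H →L[ℂ] H)) :
    hd (fun c => f (Fin.cons (x * c 0) (Fin.tail c))) b
      = hd f (Fin.cons (x * b 0) (Fin.tail b)) - x * b 0 * f (Fin.tail b)
        + b 0 * f (Fin.cons (x * b 1) (Fin.tail (Fin.tail b))) := by
  obtain ⟨y, b, rfl⟩ : ∃ y c, b = Fin.cons y c := ⟨b 0, Fin.tail b, (Fin.cons_self_tail b).symm⟩
  simp only [hd_apply, Fin.sum_univ_succ, Fin.cons_zero, Fin.cons_one, Fin.tail_cons,
    Fin.castSucc_zero, contractNth_cons_zero, contractNth_cons_succ, init_cons, mul_assoc,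
    ← Fin.succ_last, Fin.cons_succ, Fin.tail]
  abel

lemma hd_value_mul (f : Coch H k) (b : Fin (k + 2) → (H →L[ℂ] H)) :
    hd (fun c : Fin (k + 1) → (H →L[ℂ] H) => c 0 * f (Fin.tail c)) b
      = b 0 * (b 1 * f (Fin.tail (Fin.tail b))) - b 0 * hd f (Fin.tail b) := by
  obtain ⟨y, b, rfl⟩ : ∃ y c, b = Fin.cons y c := ⟨b 0, Fin.tail b, (Fin.cons_self_tail b).symm⟩
  simp only [hd_apply, Fin.sum_univ_succ, Fin.cons_zero, Fin.cons_one, Fin.tail_cons,
    Fin.castSucc_zero, contractNth_cons_zero, contractNth_cons_succ, init_cons, mul_assoc,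
    ← Fin.succ_last, Fin.cons_succ, Fin.val_zero, Fin.val_succ, pow_succ, pow_zero, one_mul,
    mul_neg, mul_one, neg_smul, one_smul, Finset.sum_neg_distrib, mul_add, Finset.mul_sum,
    mul_smul_comm, neg_neg]
  abel

theorem hd_hd : ∀ {k : ℕ} (f : Coch H k), hd (hd f) = 0 := by
  intro k
  induction k with
  | zero =>
    intro f
    funext a
    simp only [hd_apply, Finset.univ_eq_empty, Finset.sum_empty, Fin.sum_univ_one, Pi.zero_apply]
    have h0 : Fin.contractNth (0 : Fin 2) (· * ·) a 0 = a 0 * a 1 := by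
      rw [Fin.contractNth_apply_of_eq _ _ _ _ rfl]; rfl
    have e : ∀ c : Fin 0 → (H →L[ℂ] H), f c = f Fin.elim0 := fun c => congrArg f (funext fun i => i.elim0)
    simp only [e, Fin.tail, Fin.init, show Fin.last 1 = (1 : Fin 2) from rfl,
      show Fin.last 0 = (0 : Fin 1) from rfl, show (0 : Fin 1).succ = (1 : Fin 2) from rfl, h0,
      Fin.val_zero, Fin.castSucc_zero]
    simp [mul_add, add_mul, mul_assoc, pow_succ]
    erw [h0]
    simp only [mul_assoc]
    abel
  | succ k ih =>
    intro f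
    funext a
    obtain ⟨x, b, rfl⟩ : ∃ x c, a = Fin.cons x c := ⟨a 0, Fin.tail a, (Fin.cons_self_tail a).symm⟩
    have hX : (fun c => hd f (Fin.cons x c))
        = (fun c => x * f c) - (fun c => f (Fin.cons (x * c 0) (Fin.tail c)))
          + (fun c => c 0 * (fun d => f (Fin.cons x d)) (Fin.tail c))
          - hd (fun d => f (Fin.cons x d)) := funext fun c => hd_cons f x c
    rw [hd_cons (hd f) x b, hX, hd_sub, hd_add, hd_sub, ih]
    have h3 := hd_cons f x (Fin.tail b)
    have h4 := hd_value_mul (fun d => f (Fin.cons x d)) b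
    beta_reduce at h4 ⊢
    simp only [Pi.sub_apply, Pi.add_apply, Pi.zero_apply, hd_left_mul, hd_first_mul, hd_value_mul,
      h3, h4, mul_add, mul_sub, mul_assoc, Fin.tail]
    simp only [show (0 : Fin (k + 1)).succ = (1 : Fin (k + 2)) from rfl]
    abel

end Vale.Agent.P082
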