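import Vale.Agent.P082.F.Goals

/-!
# Pointwise weak limits of bounded families of cochains
-/

namespace Vale.Agent.P082.F

open Filter Topology
open scoped InnerProductSpace

universe u

variable {H : Type u} [NormedAddCommGroup H] [InnerProductSpace ℂ H] [CompleteSpace H]

/-- A bounded family of operators has a weak limit along an ultrafilter. -/
theorem exists_wot_limit {ι : Type*} (U : Ultrafilter ι) (b : ι → (H →L[ℂ] H)) {R : ℝ}
    (hR : 0 ≤ R) (hb : ∀ i, ‖b i‖ ≤ R) :
    ∃ T : H →L[ℂ] H, ‖T‖ ≤ R ∧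
      ∀ x y : H, Tendsto (fun i => ⟪x, b i y⟫_ℂ) (U : Filter ι) (𝓝 ⟪x, T y⟫_ℂ) := by
  have hbd : ∀ i v w, ‖⟪b i v, w⟫_ℂ‖ ≤ R * ‖v‖ * ‖w‖ := fun i v w =>
    (norm_inner_le_norm _ _).trans
      (mul_le_mul_of_nonneg_right ((b i).le_of_opNorm_le (hb i) v) (norm_nonneg w))
  have hex : ∀ v w, ∃ L : ℂ, Tendsto (fun i => ⟪b i v, w⟫_ℂ) (U : Filter ι) (𝓝 L) := by
    intro v w
    obtain ⟨L, -, hL⟩ := (isCompact_closedBall (0 : ℂ) (R * ‖v‖ * ‖w‖)).ultrafilter_le_nhds
      (U.map (fun i => ⟪b i v, w⟫_ℂ)) (by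
        rw [Ultrafilter.coe_map, le_principal_iff]
        exact Filter.mem_map.2 (Filter.univ_mem' (fun i => by simpa using hbd i v w)))
    exact ⟨L, hL⟩
  choose L hL using hex
  let B0 : H →ₗ⋆[ℂ] H →ₗ[ℂ] ℂ :=
    LinearMap.mk₂'ₛₗ (starRingEnd ℂ) (RingHom.id ℂ) L
      (fun v v' w => tendsto_nhds_unique (hL _ _) (((hL v w).add (hL v' w)).congr
        (fun n => by rw [map_add, inner_add_left])))
      (fun c v w => tendsto_nhds_unique (hL _ _) (((hL v w).const_smul ((starRingEnd ℂ) c)).congr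
        (fun n => by rw [map_smul, inner_smul_left, smul_eq_mul])))
      (fun v w w' => tendsto_nhds_unique (hL _ _) (((hL v w).add (hL v w')).congr
        (fun n => by rw [inner_add_right])))
      (fun c v w => tendsto_nhds_unique (hL _ _) (((hL v w).const_smul c).congr
        (fun n => by rw [inner_smul_right, smul_eq_mul])))
  have hLb : ∀ v w, ‖L v w‖ ≤ R * ‖v‖ * ‖w‖ := fun v w =>
    le_of_tendsto' (hL v w).norm (fun n => hbd n v w)
  set T := InnerProductSpace.continuousLinearMapOfBilin (B0.mkContinuous₂ R hLb) with hT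
  have hTL : ∀ v w, ⟪T v, w⟫_ℂ = L v w := fun v w => by
    rw [hT, InnerProductSpace.continuousLinearMapOfBilin_apply]
    rfl
  refine ⟨T, ContinuousLinearMap.opNorm_le_bound _ hR fun v => ?_, fun x y => ?_⟩
  · have h1 := hLb v (T v)
    rw [← hTL, inner_self_eq_norm_sq_to_K, norm_pow, RCLike.norm_ofReal, abs_norm] at h1
    rcases (norm_nonneg (T v)).eq_or_lt with h | h
    · rw [← h]; positivity
    · exact le_of_mul_le_mul_right (by rw [← sq]; exact h1) h
  · have h2 := (Complex.continuous_conj.tendsto _).comp (hL y x)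
    rw [← hTL, inner_conj_symm] at h2
    exact h2.congr fun i => inner_conj_symm _ _

variable {M : VonNeumannAlgebra H}

lemma smul_mem_alg (c : ℂ) {T : H →L[ℂ] H} (hT : T ∈ M) : c • T ∈ M := by
  have h := hT
  rw [← SetLike.mem_coe, ← M.centralizer_centralizer] at h ⊢
  intro m hm
  rw [mul_smul_comm, smul_mul_assoc, h m hm]

lemma wot_limit_mem {ι : Type*} {l : Filter ι} [l.NeBot] {b : ι → (H →L[ℂ] H)}
    (hb : ∀ i, b i ∈ M) {T : H →L[ℂ] H}
    (hT : ∀ x y : H, Tendsto (fun i => ⟪x, b i y⟫_ℂ) l (𝓝 ⟪x, T y⟫_ℂ)) : T ∈ M := by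
  rw [← SetLike.mem_coe, ← M.centralizer_centralizer]
  intro m hm
  refine ContinuousLinearMap.ext fun v => ext_inner_left ℂ fun w => ?_
  refine tendsto_nhds_unique (l := l) (f := fun i => ⟪w, m (b i v)⟫_ℂ) ?_ ?_
  · show Tendsto _ _ (𝓝 ⟪w, m (T v)⟫_ℂ)
    simp only [← ContinuousLinearMap.adjoint_inner_left m]
    exact hT _ v
  · show Tendsto _ _ (𝓝 ⟪w, T (m v)⟫_ℂ)
    refine (hT w (m v)).congr fun i => ?_
    exact congrArg (fun u => ⟪w, u⟫_ℂ) (DFunLike.congr_fun (hm (b i) (hb i)) v)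

lemma args_update {k : ℕ} {a : Fin k → (H →L[ℂ] H)} (ha : Args M a) (i : Fin k) {x : H →L[ℂ] H}
    (hx : x ∈ M) : Args M (Function.update a i x) := fun j => by
  rcases eq_or_ne j i with rfl | h
  · rwa [Function.update_self]
  · rw [Function.update_of_ne h]; exact ha j

lemma args_contract {k : ℕ} {a : Fin (k + 1) → (H →L[ℂ] H)} (ha : Args M a) (j : Fin (k + 1)) :
    Args M (Fin.contractNth j (· * ·) a) := fun i => by
  unfold Fin.contractNth
  split_ifs
  · exact ha _
  · exact mul_mem (ha _) (ha _)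
  · exact ha _

open Classical in
theorem limitGoal : LimitGoal.{u} := by
  intro H _ _ _ M k ι l _ h B hB hh
  set U : Ultrafilter ι := Ultrafilter.of l
  have hlim : ∀ a : Fin k → (H →L[ℂ] H), ∃ T : H →L[ℂ] H, Args M a →
      ‖T‖ ≤ B * ∏ i, ‖a i‖ ∧
      ∀ x y : H, Tendsto (fun i => ⟪x, h i a y⟫_ℂ) (U : Filter ι) (𝓝 ⟪x, T y⟫_ℂ) := by
    intro a
    by_cases ha : Args M a
    · obtain ⟨T, hT⟩ := exists_wot_limit U (fun i => h i a) (R := B * ∏ i, ‖a i‖)
        (mul_nonneg hB (Finset.prod_nonneg fun i _ => norm_nonneg _)) fun i => (hh i).bound a ha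
      exact ⟨T, fun _ => hT⟩
    · exact ⟨0, fun h' => absurd h' ha⟩
  choose g hg using hlim
  have hT : ∀ a, Args M a → ∀ x y : H,
      Tendsto (fun i => ⟪x, h i a y⟫_ℂ) (U : Filter ι) (𝓝 ⟪x, g a y⟫_ℂ) :=
    fun a ha => (hg a ha).2
  have hC : IsCochain M g B := by
    refine ⟨fun a ha => wot_limit_mem (fun i => (hh i).mem a ha) (hT a ha),
      fun a ha i x hx y hy => ?_, fun a ha i c x hx => ?_, fun a ha => (hg a ha).1⟩
    · refine ContinuousLinearMap.ext fun v => ext_inner_left ℂ fun w => ?_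
      refine tendsto_nhds_unique (hT _ (args_update ha i (add_mem hx hy)) w v) ?_
      rw [add_apply, inner_add_right]
      refine ((hT _ (args_update ha i hx) w v).add (hT _ (args_update ha i hy) w v)).congr fun n => ?_
      rw [(hh n).map_add a ha i x hx y hy, add_apply, inner_add_right]
    · refine ContinuousLinearMap.ext fun v => ext_inner_left ℂ fun w => ?_
      refine tendsto_nhds_unique (hT _ (args_update ha i (smul_mem_alg c hx)) w v) ?_
      rw [smul_apply, inner_smul_right]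
      refine ((hT _ (args_update ha i hx) w v).const_mul c).congr fun n => ?_
      rw [(hh n).map_smul a ha i c x hx, smul_apply, inner_smul_right]
  refine ⟨U, g, Ultrafilter.of_le l, hC, hT, fun a ha x y => ?_⟩
  have key : ∀ f : Coch H k, ⟪x, hd f a y⟫_ℂ =
      ⟪star (a 0) x, f (Fin.tail a) y⟫_ℂ
      + ∑ j : Fin k, (-1 : ℂ) ^ ((j : ℕ) + 1) *
          ⟪x, f (Fin.contractNth j.castSucc (· * ·) a) y⟫_ℂ
      + (-1 : ℂ) ^ (k + 1) * ⟪x, f (Fin.init a) (a (Fin.last k) y)⟫_ℂ := by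
    intro f
    simp only [hd, add_apply, sum_apply, smul_apply,
      inner_add_right, inner_sum, inner_smul_right, mul_apply_eq_comp,
      ContinuousLinearMap.star_eq_adjoint, ContinuousLinearMap.adjoint_inner_left]
  simp only [key]
  refine ((hT _ (fun i => ha _) _ _).add (tendsto_finsetSum _ fun j _ =>
    ((hT _ (args_contract ha _) _ _).const_mul _))).add ((hT _ (fun i => ha _) _ _).const_mul _)

end Vale.Agent.P082.F
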