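import Vale.Agent.P082.F.Halvable
import Vale.Agent.P082.Global.Pieces

/-!
# A cocycle on a halvable central piece
-/

noncomputable section

namespace Vale.Agent.P082.F

set_option linter.unusedSectionVars false

open Function (update)
open P132.Homog.TypeIII (isProj_star isProj_mul_self)
open Vale.Agent.P104.Red
open scoped InnerProductSpace

universe u

variable {H : Type u} [NormedAddCommGroup H] [InnerProductSpace ℂ H] [CompleteSpace H]
variable {M : VonNeumannAlgebra H} {k : ℕ} {z : H →L[ℂ] H} {g : Coch H (k + 1)} {C : ℝ}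

/-- A central element that passes from slot to slot passes through every argument. -/
lemma apply_update_central (h : IsBimodular M g z) (hz : IsCentral M z)
    {a : Fin (k + 1) → (H →L[ℂ] H)} (ha : Args M a) (i : Fin (k + 1)) :
    g (update a i (z * a i)) = z * g a := by
  induction i using Fin.induction with
  | zero => exact h.left a ha
  | succ i ih => rw [← h.shift a ha i, ← hz.comm _ (ha i.castSucc), ih]

/-- On the piece only the compressed arguments matter. -/
lemma mul_apply_compressed (h : IsBimodular M g z) (hz : IsCentral M z)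
    {a : Fin (k + 1) → (H →L[ℂ] H)} (ha : Args M a) :
    z * g (fun i => z * a i) = z * g a := by
  classical
  suffices ∀ s : Finset (Fin (k + 1)), z * g (fun i => if i ∈ s then z * a i else a i) = z * g a by
    simpa using this Finset.univ
  intro s
  induction s using Finset.induction with
  | empty => simp
  | insert j s hj ih =>
    set b : Fin (k + 1) → (H →L[ℂ] H) := fun i => if i ∈ s then z * a i else a i with hb
    have hbM : Args M b := fun i => by
      simp only [hb]
      split_ifs
      exacts [mul_mem hz.proj.1 (ha i), ha i]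
    have e : (fun i => if i ∈ insert j s then z * a i else a i) = update b j (z * b j) := by
      funext i
      rcases eq_or_ne i j with rfl | hi
      · simp [hb, hj]
      · rw [Function.update_of_ne hi]; simp [hb, hi]
    rw [e, apply_update_central h hz hbM j, ← mul_assoc, isProj_mul_self hz.proj, ih]

/-- Bimodularity for a central projection from that for its symmetry. -/
lemma isBimodular_of_symm (hg : IsCochain M g C) (hz : IsCentral M z)
    (h : IsBimodular M g (1 - (2 : ℂ) • z)) : IsBimodular M g z := by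
  have h1 : IsBimodular M g 1 :=
    ⟨fun a _ => by rw [one_mul, one_mul, Function.update_eq_self],
      fun a _ i => by rw [one_mul, mul_one, Function.update_eq_self, Function.update_eq_self],
      fun a _ => by rw [mul_one, mul_one, Function.update_eq_self]⟩
  have hm : (2 : ℂ) • z ∈ M := mem_smul _ hz.proj.1
  have e : z = (2⁻¹ : ℂ) • (1 - (1 - (2 : ℂ) • z)) := by
    rw [sub_sub_cancel, smul_smul]; norm_num
  rw [e]
  exact isBimodular_smul hg _ (sub_mem (one_mem M) (sub_mem (one_mem M) hm))
    (isBimodular_sub hg (one_mem M) (sub_mem (one_mem M) hm) h1 h)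

lemma args_symm_mem (hz : IsCentral M z) (b : Bool) :
    (if b then 1 - (2 : ℂ) • z else 1) ∈ M ∧
      star (if b then 1 - (2 : ℂ) • z else 1) * (if b then 1 - (2 : ℂ) • z else 1) = 1 ∧
      (1 - (2 : ℂ) • z) * (1 - (2 : ℂ) • z) = 1 ∧ star (1 - (2 : ℂ) • z) = 1 - (2 : ℂ) • z := by
  have hsq : (1 - (2 : ℂ) • z) * (1 - (2 : ℂ) • z) = 1 := by
    simp only [sub_mul, mul_sub, one_mul, mul_one, smul_mul_smul_comm, isProj_mul_self hz.proj]
    module
  have hst : star (1 - (2 : ℂ) • z) = 1 - (2 : ℂ) • z := by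
    simp [isProj_star hz.proj]
  refine ⟨?_, ?_, hsq, hst⟩
  · split_ifs
    · exact sub_mem (one_mem M) (mem_smul _ hz.proj.1)
    · exact one_mem M
  · split_ifs
    · rw [hst, hsq]
    · simp

section Transfer

variable (hz : IsCentral M z)

lemma comp_add' (x y : H →L[ℂ] H) : comp hz (x + y) = comp hz x + comp hz y := by
  ext v; simp [comp, toSp]

lemma comp_smul' (c : ℂ) (x : H →L[ℂ] H) : comp hz (c • x) = c • comp hz x := by
  ext v; simp [comp, toSp]

lemma comp_sum' {ι : Type*} (s : Finset ι) (x : ι → (H →L[ℂ] H)) :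
    comp hz (∑ i ∈ s, x i) = ∑ i ∈ s, comp hz (x i) :=
  map_sum (AddMonoidHom.mk' (comp hz) (comp_add' hz)) x s

lemma comp_one : comp hz z = 1 := by
  refine ContinuousLinearMap.ext fun v => Subtype.ext ?_
  rw [comp_coe, sp_apply, sp_apply]
  rfl

lemma ext0_add' (x y : sp z →L[ℂ] sp z) : ext0 hz (x + y) = ext0 hz x + ext0 hz y :=
  ContinuousLinearMap.ext fun _ => rfl

lemma ext0_smul' (c : ℂ) (x : sp z →L[ℂ] sp z) : ext0 hz (c • x) = c • ext0 hz x :=
  ContinuousLinearMap.ext fun _ => rfl

lemma ext0_sum' {ι : Type*} (s : Finset ι) (x : ι → (sp z →L[ℂ] sp z)) :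
    ext0 hz (∑ i ∈ s, x i) = ∑ i ∈ s, ext0 hz (x i) :=
  map_sum (AddMonoidHom.mk' (ext0 hz) (ext0_add' hz)) x s

/-- A cochain seen on the piece. -/
def down (f : Coch H k) : Coch (sp z) k := fun w => comp hz (f fun i => ext0 hz (w i))

/-- A cochain of the piece seen on the whole space. -/
def up (g : Coch (sp z) k) : Coch H k := fun a => ext0 hz (g fun i => comp hz (a i))

lemma args_ext0 {w : Fin k → (sp z →L[ℂ] sp z)} (hw : Args (pieceAlg hz) w) :
    Args M (fun i => ext0 hz (w i)) := fun i => (mem_pieceAlg hz).1 (hw i)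

lemma args_comp {a : Fin k → (H →L[ℂ] H)} (ha : Args M a) :
    Args (pieceAlg hz) (fun i => comp hz (a i)) := fun i => comp_mem hz (ha i)

lemma comp_update {k : ℕ} (a : Fin k → (H →L[ℂ] H)) (i : Fin k) (x : H →L[ℂ] H) :
    (fun j => comp hz (update a i x j)) = update (fun j => comp hz (a j)) i (comp hz x) :=
  funext fun j => Function.apply_update (fun _ t => comp hz t) a i x j

lemma ext0_update {k : ℕ} (a : Fin k → (sp z →L[ℂ] sp z)) (i : Fin k) (x : sp z →L[ℂ] sp z) :
    (fun j => ext0 hz (update a i x j)) = update (fun j => ext0 hz (a j)) i (ext0 hz x) :=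
  funext fun j => Function.apply_update (fun _ t => ext0 hz t) a i x j

lemma isCochain_down (hC : 0 ≤ C) {f : Coch H k} (hf : IsCochain M f C) :
    IsCochain (pieceAlg hz) (down hz f) C where
  mem w hw := comp_mem hz (hf.mem _ (args_ext0 hz hw))
  map_add w hw i x hx y hy := by
    simp only [down, ext0_update, ext0_add']
    rw [hf.map_add _ (args_ext0 hz hw) i _ ((mem_pieceAlg hz).1 hx) _ ((mem_pieceAlg hz).1 hy),
      comp_add']
  map_smul w hw i c x hx := by
    simp only [down, ext0_update, ext0_smul']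
    rw [hf.map_smul _ (args_ext0 hz hw) i c _ ((mem_pieceAlg hz).1 hx), comp_smul']
  bound w hw := (norm_comp_le hz _).trans ((hf.bound _ (args_ext0 hz hw)).trans
    (mul_le_mul_of_nonneg_left (Finset.prod_le_prod (fun i _ => norm_nonneg _)
      fun i _ => norm_ext0_le hz _) hC))

lemma isCochain_up (hC : 0 ≤ C) {g : Coch (sp z) k} (hg : IsCochain (pieceAlg hz) g C) :
    IsCochain M (up hz g) C where
  mem a ha := (mem_pieceAlg hz).1 (hg.mem _ (args_comp hz ha))
  map_add a ha i x hx y hy := by
    simp only [up, comp_update, comp_add']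
    rw [hg.map_add _ (args_comp hz ha) i _ (comp_mem hz hx) _ (comp_mem hz hy), ext0_add']
  map_smul a ha i c x hx := by
    simp only [up, comp_update, comp_smul']
    rw [hg.map_smul _ (args_comp hz ha) i c _ (comp_mem hz hx), ext0_smul']
  bound a ha := (norm_ext0_le hz _).trans ((hg.bound _ (args_comp hz ha)).trans
    (mul_le_mul_of_nonneg_left (Finset.prod_le_prod (fun i _ => norm_nonneg _)
      fun i _ => norm_comp_le hz _) hC))

lemma ext0_contract (j : Fin k) (w : Fin (k + 1) → (sp z →L[ℂ] sp z)) :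
    (fun i => ext0 hz (Fin.contractNth j.castSucc (· * ·) w i))
      = Fin.contractNth j.castSucc (· * ·) (fun i => ext0 hz (w i)) := by
  funext i
  rcases lt_trichotomy (i : ℕ) j with h | h | h
  · rw [Fin.contractNth_apply_of_lt _ _ _ _ h, Fin.contractNth_apply_of_lt _ _ _ _ h]
  · rw [Fin.contractNth_apply_of_eq _ _ _ _ h, Fin.contractNth_apply_of_eq _ _ _ _ h, ext0_mul]
  · rw [Fin.contractNth_apply_of_gt _ _ _ _ h, Fin.contractNth_apply_of_gt _ _ _ _ h]

lemma comp_contract (j : Fin k) {a : Fin (k + 1) → (H →L[ℂ] H)} (ha : Args M a) :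
    (fun i => comp hz (Fin.contractNth j.castSucc (· * ·) a i))
      = Fin.contractNth j.castSucc (· * ·) (fun i => comp hz (a i)) := by
  funext i
  rcases lt_trichotomy (i : ℕ) j with h | h | h
  · rw [Fin.contractNth_apply_of_lt _ _ _ _ h, Fin.contractNth_apply_of_lt _ _ _ _ h]
  · rw [Fin.contractNth_apply_of_eq _ _ _ _ h, Fin.contractNth_apply_of_eq _ _ _ _ h,
      comp_mul hz (ha _)]
  · rw [Fin.contractNth_apply_of_gt _ _ _ _ h, Fin.contractNth_apply_of_gt _ _ _ _ h]

lemma isCocycle_down {f : Coch H k} (hC : IsCochain M f C) (hf : IsCocycle M f) :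
    IsCocycle (pieceAlg hz) (down hz f) := fun w hw => by
  have e : hd (down hz f) w = comp hz (hd f fun i => ext0 hz (w i)) := by
    simp only [hd_apply, down, comp_add', comp_sum', comp_smul', ← ext0_contract]
    congr 1
    · congr 1
      rw [comp_mul hz ((mem_pieceAlg hz).1 (hw 0)), comp_ext0]
      rfl
    · congr 1
      rw [comp_mul hz (hC.mem _ (args_ext0 hz hw).init), comp_ext0]
      rfl
  rw [e, hf _ (args_ext0 hz hw)]
  exact ContinuousLinearMap.ext fun v => Subtype.ext (map_zero z)

lemma hd_up {g : Coch (sp z) k} (a : Fin (k + 1) → (H →L[ℂ] H)) (ha : Args M a)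
    (hg : IsCochain (pieceAlg hz) g C) :
    z * hd (up hz g) a = ext0 hz (hd g fun i => comp hz (a i)) := by
  have hzz := isProj_mul_self hz.proj
  simp only [hd_apply, ext0_add', ext0_sum', ext0_smul', mul_add, Finset.mul_sum, mul_smul_comm,
    ext0_mul, ext0_comp, up]
  congr 1
  · congr 1
    · rw [mul_assoc (z * a 0) z, z_ext0, ← mul_assoc]
      rfl
    · refine Finset.sum_congr rfl fun j _ => congrArg _ ?_
      rw [z_ext0, comp_contract hz j ha]
  · congr 1
    rw [← mul_assoc, z_ext0]
    show ext0 hz _ * a (Fin.last k) = ext0 hz _ * (z * a (Fin.last k) * z)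
    rw [mul_assoc z, ← hz.comm _ (ha (Fin.last k)), ← mul_assoc z z, hzz, ← mul_assoc, ext0_z]
    rfl

end Transfer

/-- A cocycle is solved on every halvable central piece. -/
theorem solve_piece (hp : PullGoal.{u}) (hh : HalvableGoal.{u}) (k : ℕ) :
    ∃ K : ℝ, 0 ≤ K ∧ ∀ (H : Type u) [NormedAddCommGroup H] [InnerProductSpace ℂ H]
      [CompleteSpace H] (M : VonNeumannAlgebra H) (f : Coch H (k + 1)) (C : ℝ) (z : H →L[ℂ] H),
      0 ≤ C → IsCochain M f C → IsCocycle M f → IsCentral M z → Halvable M z →
      ∃ h : Coch H k, IsCochain M h (K * C) ∧ ∀ a, Args M a → z * f a = z * hd h a := by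
  obtain ⟨K, hK, hKv⟩ := hh k
  refine ⟨(k : ℝ) + 1 + K, by positivity, ?_⟩
  intro H _ _ _ M f C z hC hf hcy hz hhalv
  have hu := args_symm_mem hz
  set u : Bool → (H →L[ℂ] H) := fun b => if b then 1 - (2 : ℂ) • z else 1 with hu_def
  obtain ⟨hg, ⟨h₁, hh₁, he₁⟩, hbim⟩ := hp H M k f C Bool u hC hf hcy (fun b => (hu b).1)
    fun b => (hu b).2.1
  set g := pull u f
  have hbz : IsBimodular M g z := isBimodular_of_symm hg hz
    (hbim _ (hu true).1 (by rw [(hu true).2.2.2, (hu true).2.2.1])
      ⟨Equiv.boolNot, fun b => by cases b <;> simp [hu_def, (hu true).2.2.1, Equiv.boolNot]⟩)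
  have e1 : EqOn M (f - hd h₁) g := fun a ha => by
    rw [Pi.sub_apply, he₁ a ha, Pi.sub_apply, sub_sub_cancel]
  have hgc : IsCocycle M g := (hcy.sub_hd h₁).congr e1
  obtain ⟨s, hs, t, ht, hss, htt, hst, hzs, hzt, -, -⟩ := hhalv
  obtain ⟨h', hh', he'⟩ := hKv (sp z) (pieceAlg hz) (comp hz s) (comp hz t) (comp_mem hz hs)
    (comp_mem hz ht)
    (by rw [← comp_star, ← comp_mul hz (star_mem hs), hss, comp_one])
    (by rw [← comp_star, ← comp_mul hz (star_mem ht), htt, comp_one])
    (by rw [← comp_star, ← comp_mul hz (star_mem hs), hst]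
        exact ContinuousLinearMap.ext fun v => Subtype.ext (map_zero z))
    (down hz g) C hC (isCochain_down hz hC hg) (isCocycle_down hz hg hgc)
  refine ⟨h₁ + up hz h', (hh₁.add (isCochain_up hz (by positivity) hh')).mono
    (le_of_eq (by ring)), fun a ha => ?_⟩
  have e2 : z * g a = ext0 hz (down hz g fun i => comp hz (a i)) := by
    have e3 : (fun i => ext0 hz (comp hz (a i))) = fun i => z * a i := funext fun i => by
      rw [ext0_comp, mul_assoc, ← hz.comm _ (ha i), ← mul_assoc, isProj_mul_self hz.proj]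
    have hm : g (fun i => z * a i) ∈ M := hg.mem _ fun i => mul_mem hz.proj.1 (ha i)
    rw [down, ext0_comp, e3, mul_assoc, ← hz.comm _ hm, ← mul_assoc, isProj_mul_self hz.proj,
      mul_apply_compressed hbz hz ha]
  rw [hd_add, Pi.add_apply, mul_add, hd_up hz a ha hh', he' _ (args_comp hz ha), ← e2, ← mul_add,
    ← e1 a ha, Pi.sub_apply, add_sub_cancel]

end Vale.Agent.P082.F
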