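import Vale.Agent.P082.F.Goals

/-!
# Averaging a cocycle over the corners of finitely many isometries (P082, F/Pull)

The homotopy `hom` is defined by recursion on the first argument; the identity
`hd (hom g) + hom (hd g) = pull g - g` is purely algebraic.
-/

noncomputable section

namespace Vale.Agent.P082.F

open Finset

universe u

namespace Pull

set_option linter.unusedSectionVars false

variable {H : Type u} [NormedAddCommGroup H] [InnerProductSpace ℂ H] [CompleteSpace H]

/-! ## Cochains as functions -/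

/-- The first argument fixed. -/
def slice {k : ℕ} (g : Coch H (k + 1)) (x : (H →L[ℂ] H)) : Coch H k := fun c => g (Fin.cons x c)

/-- The first argument multiplied from the left. -/
def premul {k : ℕ} (x : (H →L[ℂ] H)) (g : Coch H (k + 1)) : Coch H (k + 1) := fun c =>
  g (Fin.cons (x * c 0) (Fin.tail c))

/-- The differential without its first term. -/
def body {k : ℕ} (g : Coch H k) (a : Fin (k + 1) → (H →L[ℂ] H)) : (H →L[ℂ] H) :=
  (∑ j : Fin k, (-1 : ℂ) ^ ((j : ℕ) + 1) • g (Fin.contractNth j.castSucc (· * ·) a))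
    + (-1 : ℂ) ^ (k + 1) • (g (Fin.init a) * a (Fin.last k))

lemma hd_eq_body {k : ℕ} (g : Coch H k) (a : Fin (k + 1) → (H →L[ℂ] H)) :
    hd g a = a 0 * g (Fin.tail a) + body g a := by
  simp [hd, body, add_assoc]

lemma contract_cons_zero {k : ℕ} (x : (H →L[ℂ] H)) (c : Fin (k + 1) → (H →L[ℂ] H)) :
    Fin.contractNth (0 : Fin (k + 2)) (· * ·) (Fin.cons x c : Fin (k + 2) → (H →L[ℂ] H))
      = Fin.cons (x * c 0) (Fin.tail c) := by
  funext j
  refine Fin.cases ?_ (fun j => ?_) j
  · simp [Fin.contractNth]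
  · simp [Fin.contractNth, Fin.tail]

lemma contract_cons_succ {k : ℕ} (x : (H →L[ℂ] H)) (c : Fin (k + 1) → (H →L[ℂ] H)) (i : Fin (k + 1)) :
    Fin.contractNth i.succ (· * ·) (Fin.cons x c : Fin (k + 2) → (H →L[ℂ] H))
      = Fin.cons x (Fin.contractNth i (· * ·) c) := by
  funext j
  refine Fin.cases ?_ (fun j => ?_) j
  · simp [Fin.contractNth]
  · simp [Fin.contractNth, ← Fin.succ_castSucc]

lemma hd_cons {k : ℕ} (g : Coch H (k + 1)) (x : (H →L[ℂ] H)) (c : Fin (k + 1) → (H →L[ℂ] H)) :
    hd g (Fin.cons x c) = x * g c - g (Fin.cons (x * c 0) (Fin.tail c)) - body (slice g x) c := by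
  have hlast : (Fin.cons x c : Fin (k + 2) → (H →L[ℂ] H)) (Fin.last (k + 1)) = c (Fin.last k) := by
    rw [← Fin.succ_last, Fin.cons_succ]
  have hinit : Fin.init (Fin.cons x c : Fin (k + 2) → (H →L[ℂ] H)) = Fin.cons x (Fin.init c) := by
    funext j
    refine Fin.cases ?_ (fun j => ?_) j
    · simp [Fin.init]
    · simp [Fin.init, ← Fin.succ_castSucc]
  rw [hd, Fin.sum_univ_succ]
  simp only [Fin.cons_zero, Fin.tail_cons, Fin.castSucc_zero, contract_cons_zero, hlast, hinit,
    ← Fin.succ_castSucc, contract_cons_succ, Fin.val_zero, Fin.val_succ, body, slice]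
  simp [pow_succ, Finset.sum_neg_distrib]
  abel

lemma hd_neg {k : ℕ} (g : Coch H k) : hd (-g) = -hd g := by
  funext a
  simp [hd]
  abel

/-! ## Averages over labels -/

variable {ι : Type} [Fintype ι]

/-- The average over all labellings. -/
def av {m : ℕ} (F : (Fin m → ι) → (H →L[ℂ] H)) : (H →L[ℂ] H) :=
  (Fintype.card (Fin m → ι) : ℂ)⁻¹ • ∑ τ : Fin m → ι, F τ

lemma av_congr {m : ℕ} {F G : (Fin m → ι) → (H →L[ℂ] H)} (h : ∀ τ, F τ = G τ) : av F = av G := by
  simp [av, h]

lemma av_add {m : ℕ} (F G : (Fin m → ι) → (H →L[ℂ] H)) : av (fun τ => F τ + G τ) = av F + av G := by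
  simp [av, Finset.sum_add_distrib, smul_add]

lemma av_sub {m : ℕ} (F G : (Fin m → ι) → (H →L[ℂ] H)) : av (fun τ => F τ - G τ) = av F - av G := by
  simp [av, Finset.sum_sub_distrib, smul_sub]

lemma av_smul {m : ℕ} (c : ℂ) (F : (Fin m → ι) → (H →L[ℂ] H)) : av (fun τ => c • F τ) = c • av F := by
  simp [av, ← Finset.smul_sum, smul_comm c]

lemma av_sum {κ : Type} (s : Finset κ) {m : ℕ} (F : κ → (Fin m → ι) → (H →L[ℂ] H)) :
    av (fun τ => ∑ j ∈ s, F j τ) = ∑ j ∈ s, av (F j) := by
  simp only [av, ← Finset.smul_sum]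
  rw [Finset.sum_comm]

lemma av_mul_left {m : ℕ} (x : (H →L[ℂ] H)) (F : (Fin m → ι) → (H →L[ℂ] H)) : av (fun τ => x * F τ) = x * av F := by
  simp [av, ← Finset.mul_sum]

lemma av_mul_right {m : ℕ} (x : (H →L[ℂ] H)) (F : (Fin m → ι) → (H →L[ℂ] H)) : av (fun τ => F τ * x) = av F * x := by
  simp [av, ← Finset.sum_mul]

lemma norm_av_le [Nonempty ι] {m : ℕ} (F : (Fin m → ι) → (H →L[ℂ] H)) {C : ℝ} (h : ∀ τ, ‖F τ‖ ≤ C) :
    ‖av F‖ ≤ C := by
  have hc : (0 : ℝ) < Fintype.card (Fin m → ι) := by exact_mod_cast Fintype.card_pos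
  refine (norm_smul_le _ _).trans ?_
  rw [norm_inv, Complex.norm_natCast, inv_mul_le_iff₀ hc]
  refine (norm_sum_le_of_le _ fun τ _ => h τ).trans ?_
  simp [Finset.card_univ]

lemma av_mem {M : VonNeumannAlgebra H} {m : ℕ} {F : (Fin m → ι) → (H →L[ℂ] H)} (h : ∀ τ, F τ ∈ M) :
    av F ∈ M :=
  M.toStarSubalgebra.smul_mem (sum_mem fun τ _ => h τ) _

lemma av_succAbove [Nonempty ι] {m : ℕ} (p : Fin (m + 1)) (F : (Fin m → ι) → (H →L[ℂ] H)) :
    av (fun τ : Fin (m + 1) → ι => F (τ ∘ p.succAbove)) = av F := by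
  classical
  have hsum : ∑ τ : Fin (m + 1) → ι, F (τ ∘ p.succAbove)
      = (Fintype.card ι : ℂ) • ∑ τ : Fin m → ι, F τ := by
    rw [← (Fin.insertNthEquiv (fun _ => ι) p).sum_comp (fun τ => F (τ ∘ p.succAbove)),
      Fintype.sum_prod_type]
    simp only [Fin.insertNthEquiv_apply, Function.comp_def, Fin.insertNth_apply_succAbove]
    rw [Finset.sum_const, Finset.card_univ, Nat.cast_smul_eq_nsmul]
  have hι : (Fintype.card ι : ℂ) ≠ 0 := by exact_mod_cast Fintype.card_ne_zero
  rw [av, av, hsum, smul_smul]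
  congr 1
  simp [pow_succ]
  field_simp

/-- Relabelling one place by a permutation. -/
lemma av_relabel {m : ℕ} (p : Fin m) (σ : Equiv.Perm ι) (F : (Fin m → ι) → (H →L[ℂ] H)) :
    av (fun τ => F (Function.update τ p (σ (τ p)))) = av F := by
  classical
  simp only [av]
  congr 1
  refine Fintype.sum_equiv (Equiv.piCongrRight fun i => if i = p then σ else Equiv.refl ι) _ _
    fun τ => congrArg F ?_
  funext i
  by_cases h : i = p
  · subst h; simp
  · simp [h]

/-! ## Labelled tuples -/

variable (u : ι → (H →L[ℂ] H))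

/-- The labelled tuple. -/
def bb {m : ℕ} (τ : Fin (m + 1) → ι) (a : Fin m → (H →L[ℂ] H)) : Fin m → (H →L[ℂ] H) := fun i =>
  u (τ i.castSucc) * a i * star (u (τ i.succ))

/-- The first homotopy term. -/
def T0 {m : ℕ} (g : Coch H (m + 1)) (a : Fin m → (H →L[ℂ] H)) : (H →L[ℂ] H) :=
  av fun τ : Fin (m + 1) → ι =>
    g (Fin.cons (star (u (τ 0))) (bb u τ a)) * u (τ (Fin.last m))

/-- The homotopy. -/
def hom : (m : ℕ) → Coch H (m + 1) → Coch H m
  | 0, g => fun a => T0 u g a
  | m + 1, g => fun a => T0 u g a - hom m (slice g (a 0)) (Fin.tail a)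

lemma pull_eq {m : ℕ} (g : Coch H (m + 1)) (a : Fin (m + 1) → (H →L[ℂ] H)) :
    pull u g a = av fun τ : Fin (m + 2) → ι =>
      star (u (τ 0)) * g (bb u τ a) * u (τ (Fin.last (m + 1))) := rfl

lemma bb_init {m : ℕ} (τ : Fin (m + 2) → ι) (a : Fin (m + 1) → (H →L[ℂ] H)) :
    bb u (τ ∘ (Fin.last (m + 1)).succAbove) (Fin.init a) = Fin.init (bb u τ a) := by
  funext i
  simp [bb, Fin.init, Fin.succAbove_last]

lemma bb_tail {m : ℕ} (τ : Fin (m + 2) → ι) (a : Fin (m + 1) → (H →L[ℂ] H)) :
    bb u (τ ∘ (0 : Fin (m + 2)).succAbove) (Fin.tail a) = Fin.tail (bb u τ a) := by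
  funext i
  simp [bb, Fin.tail, Fin.succAbove_zero]

variable {u} (hu : ∀ t, star (u t) * u t = 1)
include hu

lemma bb_contract {m : ℕ} (τ : Fin (m + 2) → ι) (a : Fin (m + 1) → (H →L[ℂ] H)) (i : Fin m) :
    Fin.contractNth i.castSucc (· * ·) (bb u τ a) =
      bb u (τ ∘ i.succ.castSucc.succAbove) (Fin.contractNth i.castSucc (· * ·) a) := by
  funext j
  have v1 : ((i.succ.castSucc : Fin (m + 2)) : ℕ) = i + 1 := by simp
  rcases lt_trichotomy (j : ℕ) (i : ℕ) with h | h | h
  · have h1 : i.succ.castSucc.succAbove j.castSucc = j.castSucc.castSucc :=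
      Fin.succAbove_of_castSucc_lt _ _ (Fin.lt_def.mpr (by simp; omega))
    have h2 : i.succ.castSucc.succAbove j.succ = j.castSucc.succ :=
      (Fin.succAbove_of_castSucc_lt _ _ (Fin.lt_def.mpr (by simp; omega))).trans
        (Fin.succ_castSucc j).symm
    simp only [Fin.contractNth, Fin.val_castSucc, h, if_true, bb, Function.comp_apply, h1, h2]
  · have hji : j = i := Fin.ext h
    subst hji
    have h1 : j.succ.castSucc.succAbove j.castSucc = j.castSucc.castSucc :=
      Fin.succAbove_of_castSucc_lt _ _ (Fin.lt_def.mpr (by simp))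
    have h2 : j.succ.castSucc.succAbove j.succ = j.succ.succ :=
      Fin.succAbove_of_le_castSucc _ _ le_rfl
    simp only [Fin.contractNth, Fin.val_castSucc, lt_irrefl, if_false, if_true, bb,
      Function.comp_apply, h1, h2]
    rw [Fin.succ_castSucc j]
    simp only [mul_assoc]
    rw [← mul_assoc (star (u (τ j.succ.castSucc))) (u (τ j.succ.castSucc)), hu, one_mul]
  · have h1 : i.succ.castSucc.succAbove j.castSucc = j.succ.castSucc :=
      (Fin.succAbove_of_le_castSucc _ _ (Fin.le_def.mpr (by simp; omega))).trans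
        (Fin.succ_castSucc j)
    have h2 : i.succ.castSucc.succAbove j.succ = j.succ.succ :=
      Fin.succAbove_of_le_castSucc _ _ (Fin.le_def.mpr (by simp; omega))
    simp only [Fin.contractNth, Fin.val_castSucc, not_lt.mpr h.le, h.ne', if_false, bb,
      Function.comp_apply, h1, h2]

lemma T0_hd [Nonempty ι] {m : ℕ} (g : Coch H (m + 1)) (a : Fin (m + 1) → (H →L[ℂ] H)) :
    T0 u (hd g) a = pull u g a - T0 u (premul (a 0) g) (Fin.tail a) - body (T0 u g) a := by
  have hA : T0 u (premul (a 0) g) (Fin.tail a) = av fun τ : Fin (m + 2) → ι =>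
      g (Fin.cons (star (u (τ 0)) * bb u τ a 0) (Fin.tail (bb u τ a)))
        * u (τ (Fin.last (m + 1))) := by
    rw [T0, ← av_succAbove (0 : Fin (m + 2))]
    refine av_congr fun τ => ?_
    rw [bb_tail u τ a]
    simp only [premul, Fin.cons_zero, Fin.tail_cons, Function.comp_apply, Fin.succAbove_zero,
      Fin.succ_last]
    congr 3
    simp [bb, ← mul_assoc, hu]
  have hsum : ∀ i : Fin m, T0 u g (Fin.contractNth i.castSucc (· * ·) a) =
      av fun τ : Fin (m + 2) → ι =>
        slice g (star (u (τ 0))) (Fin.contractNth i.castSucc (· * ·) (bb u τ a))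
          * u (τ (Fin.last (m + 1))) := by
    intro i
    rw [T0, ← av_succAbove i.succ.castSucc]
    refine av_congr fun τ => ?_
    have h0 : i.succ.castSucc.succAbove 0 = 0 :=
      Fin.succAbove_ne_zero_zero (Fin.ne_of_val_ne (by simp))
    have hl : i.succ.castSucc.succAbove (Fin.last m) = Fin.last (m + 1) :=
      Fin.succAbove_ne_last_last (Fin.ne_of_val_ne (by simp; omega))
    simp [slice, bb_contract hu, h0, hl]
  have hlast : T0 u g (Fin.init a) * a (Fin.last m) = av fun τ : Fin (m + 2) → ι =>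
      slice g (star (u (τ 0))) (Fin.init (bb u τ a)) * bb u τ a (Fin.last m)
        * u (τ (Fin.last (m + 1))) := by
    rw [T0, ← av_succAbove (Fin.last (m + 1)), ← av_mul_right]
    refine av_congr fun τ => ?_
    rw [bb_init u τ a]
    simp [slice, bb, Fin.succAbove_last, mul_assoc, hu]
  have hbody : body (T0 u g) a = av fun τ : Fin (m + 2) → ι =>
      body (slice g (star (u (τ 0)))) (bb u τ a) * u (τ (Fin.last (m + 1))) := by
    simp only [body, hsum, hlast, ← av_smul, ← av_sum, ← av_add]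
    refine av_congr fun τ => ?_
    simp [add_mul, Finset.sum_mul]
  rw [pull_eq, hA, hbody, ← av_sub, ← av_sub]
  refine av_congr fun τ => ?_
  rw [hd_cons, sub_mul, sub_mul]

omit hu

lemma hom_add : ∀ (m : ℕ) (g g' : Coch H (m + 1)) (a : Fin m → (H →L[ℂ] H)),
    hom u m (g + g') a = hom u m g a + hom u m g' a := by
  intro m
  induction m with
  | zero => intro g g' a; simp [hom, T0, add_mul, av_add]
  | succ m ih =>
    intro g g' a
    have hs : slice (g + g') (a 0) = slice g (a 0) + slice g' (a 0) := rfl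
    simp only [hom, hs, ih, T0, Pi.add_apply, add_mul, av_add]
    abel

lemma hom_sub (m : ℕ) (g g' : Coch H (m + 1)) (a : Fin m → (H →L[ℂ] H)) :
    hom u m (g - g') a = hom u m g a - hom u m g' a := by
  rw [eq_sub_iff_add_eq, ← hom_add, sub_add_cancel]

lemma hom_mul_left : ∀ (m : ℕ) (x : (H →L[ℂ] H)) (g : Coch H (m + 1)) (a : Fin m → (H →L[ℂ] H)),
    hom u m (fun c => x * g c) a = x * hom u m g a := by
  intro m
  induction m with
  | zero => intro x g a; simp [hom, T0, mul_assoc, av_mul_left]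
  | succ m ih =>
    intro x g a
    have hs : slice (fun c => x * g c) (a 0) = fun c => x * slice g (a 0) c := rfl
    simp only [hom, hs, ih, T0, mul_assoc, av_mul_left, mul_sub]

lemma T0_slice_left {m : ℕ} (g : Coch H (m + 1)) (a : Fin (m + 1) → (H →L[ℂ] H)) :
    T0 u (fun c => c 0 * g (Fin.tail c)) a = pull u g a := by
  rw [T0, pull_eq]
  exact av_congr fun τ => by simp

include hu

lemma homotopy [Nonempty ι] : ∀ (m : ℕ) (g : Coch H (m + 1)) (a : Fin (m + 1) → (H →L[ℂ] H)),
    hd (hom u m g) a + hom u (m + 1) (hd g) a = pull u g a - g a := by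
  intro m
  induction m with
  | zero =>
    intro g a
    have h1 : T0 u (slice (hd g) (a 0)) (Fin.tail a) = a 0 * T0 u g (Fin.tail a)
        - T0 u (premul (a 0) g) (Fin.tail a) + g a := by
      have hpt : ∀ c : Fin 1 → (H →L[ℂ] H), slice (hd g) (a 0) c
          = a 0 * g c - premul (a 0) g c + g a * c 0 := by
        intro c
        rw [slice, hd_cons]
        have : slice g (a 0) (Fin.init c) = g a := congrArg g (by funext j; fin_cases j; rfl)
        simp [body, this, premul]
      have hone : (av fun τ : Fin 1 → ι => star (u (τ 0)) * u (τ (Fin.last 0))) = 1 := by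
        have : ∀ τ : Fin 1 → ι, star (u (τ 0)) * u (τ (Fin.last 0)) = 1 := fun τ => hu (τ 0)
        rw [av_congr this, av, Finset.sum_const, Finset.card_univ, ← Nat.cast_smul_eq_nsmul ℂ,
          smul_smul, inv_mul_cancel₀ (by exact_mod_cast Fintype.card_ne_zero), one_smul]
      simp only [T0, hpt, Fin.cons_zero, add_mul, sub_mul, mul_assoc, av_add, av_sub, av_mul_left,
        hone, mul_one]
    have h2 : hom u (0 + 1) (hd g) a =
        T0 u (hd g) a - T0 u (slice (hd g) (a 0)) (Fin.tail a) := rfl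
    rw [h2, T0_hd hu, h1]
    simp only [hd, body, hom, Fin.sum_univ_zero]
    abel
  | succ m ih =>
    intro g a
    obtain ⟨x, c, rfl⟩ : ∃ (x : (H →L[ℂ] H)) (c : Fin (m + 1) → (H →L[ℂ] H)), a = Fin.cons x c :=
      ⟨a 0, Fin.tail a, (Fin.cons_self_tail a).symm⟩
    -- the left-shift part of a slice of a differential
    set Lx : Coch H (m + 2) := (fun e => e 0 * slice g x (Fin.tail e)) - premul x g with hLx
    have hslice : slice (hd g) x = (fun e => x * g e) + Lx - hd (slice g x) := by
      funext e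
      have e1 : slice (hd g) x e = x * g e - g (Fin.cons (x * e 0) (Fin.tail e))
          - body (slice g x) e := hd_cons g x e
      rw [e1]
      simp [hLx, slice, hd_eq_body, premul]
      abel
    have hLx0 : slice Lx (c 0) = (fun e => c 0 * slice g x e) - slice g (x * c 0) := by
      funext e
      simp [hLx, slice, premul]
    have hTL : T0 u Lx c = pull u (slice g x) c - T0 u (premul x g) c := by
      rw [← T0_slice_left (slice g x) c]
      simp only [T0, hLx, Pi.sub_apply, sub_mul, av_sub]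
    have hhomLx : hom u (m + 1) Lx c = pull u (slice g x) c - T0 u (premul x g) c
        - (c 0 * hom u m (slice g x) (Fin.tail c) - hom u m (slice g (x * c 0)) (Fin.tail c)) := by
      show T0 u Lx c - hom u m (slice Lx (c 0)) (Fin.tail c) = _
      rw [hLx0, hom_sub, hom_mul_left, hTL]
    have hh : hom u (m + 1 + 1) (hd g) (Fin.cons x c) =
        pull u g (Fin.cons x c) - T0 u (premul x g) c - body (T0 u g) (Fin.cons x c)
        - (x * hom u (m + 1) g c + hom u (m + 1) Lx c - hom u (m + 1) (hd (slice g x)) c) := by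
      show T0 u (hd g) (Fin.cons x c)
          - hom u (m + 1) (slice (hd g) ((Fin.cons x c : Fin (m + 2) → (H →L[ℂ] H)) 0))
            (Fin.tail (Fin.cons x c : Fin (m + 2) → (H →L[ℂ] H))) = _
      rw [Fin.cons_zero, Fin.tail_cons, hslice, hom_sub, hom_add, hom_mul_left, T0_hd hu,
        Fin.cons_zero, Fin.tail_cons]
    have hb : body (T0 u g) (Fin.cons x c) =
        -T0 u g (Fin.cons (x * c 0) (Fin.tail c)) - body (slice (T0 u g) x) c := by
      have := hd_cons (T0 u g) x c
      rw [hd_eq_body, Fin.cons_zero, Fin.tail_cons] at this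
      rw [← sub_eq_zero] at this ⊢
      rw [← this]; abel
    have hs : slice (hom u (m + 1) g) x
        = slice (T0 u g) x - hom u m (slice g x) := by
      funext e
      simp [slice, hom]
    have hs2 : hom u (m + 1) g (Fin.cons (x * c 0) (Fin.tail c)) =
        T0 u g (Fin.cons (x * c 0) (Fin.tail c)) - hom u m (slice g (x * c 0)) (Fin.tail c) := by
      show T0 u g _ - hom u m (slice g _) _ = _
      rw [Fin.cons_zero, Fin.tail_cons]
    have hbsub : body (slice (hom u (m + 1) g) x) c
        = body (slice (T0 u g) x) c - body (hom u m (slice g x)) c := by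
      rw [hs]
      simp [body, smul_sub, Finset.sum_sub_distrib, sub_mul]
      abel
    have hih := ih (slice g x) c
    rw [hd_eq_body, ← eq_sub_iff_add_eq'] at hih
    rw [hd_cons, hh, hb, hhomLx, hs2, hbsub, hih]
    show _ = pull u g (Fin.cons x c) - slice g x c
    abel

omit hu

/-! ## Bounds and multilinearity -/

variable {M : VonNeumannAlgebra H} (hm : ∀ t, u t ∈ M)
include hm

lemma args_bb {m : ℕ} (τ : Fin (m + 1) → ι) {a : Fin m → (H →L[ℂ] H)} (ha : Args M a) :
    Args M (bb u τ a) :=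
  fun i => mul_mem (mul_mem (hm _) (ha i)) (star_mem (hm _))

lemma args_cons {m : ℕ} {x : (H →L[ℂ] H)} {a : Fin m → (H →L[ℂ] H)} (hx : x ∈ M) (ha : Args M a) :
    Args M (Fin.cons x a) := fun i => by
  refine Fin.cases ?_ (fun i => ?_) i
  · simpa using hx
  · simpa using ha i

lemma args_tuple {m : ℕ} (τ : Fin (m + 1) → ι) {a : Fin m → (H →L[ℂ] H)} (ha : Args M a) :
    Args M (Fin.cons (star (u (τ 0))) (bb u τ a)) :=
  args_cons hm (star_mem (hm _)) (args_bb hm τ ha)

omit hm

lemma bb_update {m : ℕ} (τ : Fin (m + 1) → ι) (a : Fin m → (H →L[ℂ] H)) (i : Fin m) (x : (H →L[ℂ] H)) :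
    bb u τ (Function.update a i x)
      = Function.update (bb u τ a) i (u (τ i.castSucc) * x * star (u (τ i.succ))) := by
  funext j
  by_cases h : j = i
  · subst h; simp [bb]
  · simp [bb, h]

lemma norm_le_one (hu : ∀ t, star (u t) * u t = 1) (t : ι) : ‖u t‖ ≤ 1 := by
  have h := CStarRing.norm_star_mul_self (x := u t)
  rw [hu t] at h
  have h1 : ‖(1 : (H →L[ℂ] H))‖ ≤ 1 := ContinuousLinearMap.norm_id_le
  nlinarith [norm_nonneg (u t)]

lemma norm_bb_le (hu : ∀ t, star (u t) * u t = 1) {m : ℕ} (τ : Fin (m + 1) → ι) (a : Fin m → (H →L[ℂ] H))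
    (i : Fin m) : ‖bb u τ a i‖ ≤ ‖a i‖ := by
  calc ‖bb u τ a i‖ ≤ ‖u (τ i.castSucc)‖ * ‖a i‖ * ‖star (u (τ i.succ))‖ :=
        (norm_mul_le _ _).trans (mul_le_mul_of_nonneg_right (norm_mul_le _ _) (norm_nonneg _))
    _ ≤ 1 * ‖a i‖ * 1 := by
        rw [norm_star]; gcongr <;> exact norm_le_one hu _
    _ = ‖a i‖ := by ring

lemma prod_bb_le (hu : ∀ t, star (u t) * u t = 1) {m : ℕ} (τ : Fin (m + 1) → ι)
    (a : Fin m → (H →L[ℂ] H)) : ∏ i, ‖bb u τ a i‖ ≤ ∏ i, ‖a i‖ :=
  Finset.prod_le_prod (fun _ _ => norm_nonneg _) fun i _ => norm_bb_le hu τ a i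

lemma isCochain_pull [Nonempty ι] (hm : ∀ t, u t ∈ M) (hu : ∀ t, star (u t) * u t = 1) {m : ℕ}
    {f : Coch H (m + 1)} {C : ℝ} (hC : 0 ≤ C) (hf : IsCochain M f C) :
    IsCochain M (pull u f) C where
  mem a ha := by
    rw [pull_eq]
    exact av_mem fun τ => mul_mem (mul_mem (star_mem (hm _))
      (hf.mem _ (args_bb hm τ ha))) (hm _)
  map_add a ha i x hx y hy := by
    simp only [pull_eq, ← av_add]
    refine av_congr fun τ => ?_
    simp only [bb_update]
    rw [mul_add, add_mul, hf.map_add _ (args_bb hm τ ha) i _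
        (mul_mem (mul_mem (hm _) hx) (star_mem (hm _))) _
        (mul_mem (mul_mem (hm _) hy) (star_mem (hm _)))]
    simp [mul_add, add_mul]
  map_smul a ha i c x hx := by
    simp only [pull_eq, ← av_smul]
    refine av_congr fun τ => ?_
    simp only [bb_update]
    rw [mul_smul_comm, smul_mul_assoc, hf.map_smul _ (args_bb hm τ ha) i c _
        (mul_mem (mul_mem (hm _) hx) (star_mem (hm _)))]
    simp
  bound a ha := by
    rw [pull_eq]
    refine norm_av_le _ fun τ => ?_
    calc _ ≤ ‖star (u (τ 0))‖ * ‖f (bb u τ a)‖ * ‖u (τ (Fin.last (m + 1)))‖ :=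
          (norm_mul_le _ _).trans (mul_le_mul_of_nonneg_right (norm_mul_le _ _) (norm_nonneg _))
      _ ≤ 1 * (C * ∏ i, ‖a i‖) * 1 := by
          rw [norm_star]
          have hP : 0 ≤ C * ∏ i, ‖a i‖ :=
            mul_nonneg hC (Finset.prod_nonneg fun _ _ => norm_nonneg _)
          have hb : ‖f (bb u τ a)‖ ≤ C * ∏ i, ‖a i‖ := (hf.bound _ (args_bb hm τ ha)).trans
            (mul_le_mul_of_nonneg_left (prod_bb_le hu τ a) hC)
          gcongr <;> exact norm_le_one hu _
      _ = _ := by ring

lemma isCochain_slice {m : ℕ} {f : Coch H (m + 1)} {C : ℝ} (hf : IsCochain M f C) {x : (H →L[ℂ] H)}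
    (hx : x ∈ M) : IsCochain M (slice f x) (C * ‖x‖) := by
  have hc : ∀ {a : Fin m → (H →L[ℂ] H)}, Args M a → Args M (Fin.cons x a) := fun ha i => by
    refine Fin.cases ?_ (fun i => ?_) i
    · simpa using hx
    · simpa using ha i
  refine ⟨fun a ha => hf.mem _ (hc ha), fun a ha i y hy z hz => ?_, fun a ha i c y hy => ?_,
    fun a ha => (hf.bound _ (hc ha)).trans_eq ?_⟩
  · simp only [slice, Fin.cons_update]
    exact hf.map_add _ (hc ha) i.succ y hy z hz
  · simp only [slice, Fin.cons_update]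
    exact hf.map_smul _ (hc ha) i.succ c y hy
  · rw [Fin.prod_univ_succ]; simp [mul_assoc]

lemma hom_congr (hm : ∀ t, u t ∈ M) : ∀ (m : ℕ) (g g' : Coch H (m + 1)), EqOn M g g' →
    EqOn M (hom u m g) (hom u m g') := by
  intro m
  induction m with
  | zero =>
    intro g g' h a ha
    exact av_congr fun τ => by rw [h _ (args_tuple hm τ ha)]
  | succ m ih =>
    intro g g' h a ha
    show T0 u g a - _ = T0 u g' a - _
    congr 1
    · exact av_congr fun τ => by rw [h _ (args_tuple hm τ ha)]
    · exact ih _ _ (fun c hc => h _ (args_cons hm (ha 0) hc)) _ fun i => ha i.succ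

lemma hom_zero (m : ℕ) (a : Fin m → (H →L[ℂ] H)) : hom u m (0 : Coch H (m + 1)) a = 0 := by
  have := hom_add (u := u) m 0 0 a
  rw [add_zero] at this
  exact left_eq_add.mp this

lemma hom_smul : ∀ (m : ℕ) (c : ℂ) (g : Coch H (m + 1)) (a : Fin m → (H →L[ℂ] H)),
    hom u m (c • g) a = c • hom u m g a := by
  intro m
  induction m with
  | zero => intro c g a; simp [hom, T0, av_smul]
  | succ m ih =>
    intro c g a
    have hs : slice (c • g) (a 0) = c • slice g (a 0) := rfl
    simp only [hom, hs, ih, T0, Pi.smul_apply, smul_mul_assoc, av_smul, smul_sub]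

lemma T0_mem (hm : ∀ t, u t ∈ M) {m : ℕ} {g : Coch H (m + 1)} {C : ℝ} (hg : IsCochain M g C)
    {a : Fin m → (H →L[ℂ] H)} (ha : Args M a) : T0 u g a ∈ M :=
  av_mem fun τ => mul_mem (hg.mem _ (args_tuple hm τ ha)) (hm _)

lemma T0_bound [Nonempty ι] (hm : ∀ t, u t ∈ M) (hu : ∀ t, star (u t) * u t = 1) {m : ℕ}
    {g : Coch H (m + 1)} {C : ℝ} (hC : 0 ≤ C) (hg : IsCochain M g C) {a : Fin m → (H →L[ℂ] H)}
    (ha : Args M a) : ‖T0 u g a‖ ≤ C * ∏ i, ‖a i‖ := by
  refine norm_av_le _ fun τ => ?_
  refine (norm_mul_le _ _).trans ?_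
  refine (mul_le_mul (hg.bound _ (args_tuple hm τ ha)) (norm_le_one hu _) (norm_nonneg _)
    (mul_nonneg hC (Finset.prod_nonneg fun _ _ => norm_nonneg _))).trans ?_
  rw [mul_one, Fin.prod_univ_succ]
  simp only [Fin.cons_zero, Fin.cons_succ, norm_star]
  refine mul_le_mul_of_nonneg_left ?_ hC
  exact (mul_le_of_le_one_left (Finset.prod_nonneg fun _ _ => norm_nonneg _)
    (norm_le_one hu _)).trans (prod_bb_le hu τ a)

lemma T0_add (hm : ∀ t, u t ∈ M) {m : ℕ} {g : Coch H (m + 1)} {C : ℝ} (hg : IsCochain M g C)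
    {a : Fin m → (H →L[ℂ] H)} (ha : Args M a) (i : Fin m) {x y : (H →L[ℂ] H)} (hx : x ∈ M) (hy : y ∈ M) :
    T0 u g (Function.update a i (x + y))
      = T0 u g (Function.update a i x) + T0 u g (Function.update a i y) := by
  simp only [T0, ← av_add]
  refine av_congr fun τ => ?_
  simp only [bb_update, Fin.cons_update]
  rw [mul_add, add_mul, hg.map_add _ (args_tuple hm τ ha) i.succ _
      (mul_mem (mul_mem (hm _) hx) (star_mem (hm _))) _
      (mul_mem (mul_mem (hm _) hy) (star_mem (hm _)))]
  simp [add_mul]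

lemma T0_smul (hm : ∀ t, u t ∈ M) {m : ℕ} {g : Coch H (m + 1)} {C : ℝ} (hg : IsCochain M g C)
    {a : Fin m → (H →L[ℂ] H)} (ha : Args M a) (i : Fin m) (c : ℂ) {x : (H →L[ℂ] H)} (hx : x ∈ M) :
    T0 u g (Function.update a i (c • x)) = c • T0 u g (Function.update a i x) := by
  simp only [T0, ← av_smul]
  refine av_congr fun τ => ?_
  simp only [bb_update, Fin.cons_update]
  rw [mul_smul_comm, smul_mul_assoc, hg.map_smul _ (args_tuple hm τ ha) i.succ c _
      (mul_mem (mul_mem (hm _) hx) (star_mem (hm _)))]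
  simp

lemma slice_update_add {m : ℕ} {g : Coch H (m + 1)} {C : ℝ} (hg : IsCochain M g C)
    {x y : (H →L[ℂ] H)} (hx : x ∈ M) (hy : y ∈ M) :
    EqOn M (slice g (x + y)) (slice g x + slice g y) := by
  intro c hc
  have ha : Args M (Fin.cons x c) := fun i => by
    refine Fin.cases ?_ (fun i => ?_) i
    · simpa using hx
    · simpa using hc i
  have := hg.map_add _ ha 0 x hx y hy
  simpa [slice, Fin.update_cons_zero] using this

lemma slice_update_smul {m : ℕ} {g : Coch H (m + 1)} {C : ℝ} (hg : IsCochain M g C)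
    (r : ℂ) {x : (H →L[ℂ] H)} (hx : x ∈ M) :
    EqOn M (slice g (r • x)) (r • slice g x) := by
  intro c hc
  have ha : Args M (Fin.cons x c) := fun i => by
    refine Fin.cases ?_ (fun i => ?_) i
    · simpa using hx
    · simpa using hc i
  have := hg.map_smul _ ha 0 r x hx
  simpa [slice, Fin.update_cons_zero] using this

lemma isCochain_hom [Nonempty ι] (hm : ∀ t, u t ∈ M) (hu : ∀ t, star (u t) * u t = 1) :
    ∀ (m : ℕ) (g : Coch H (m + 1)) (C : ℝ), 0 ≤ C → IsCochain M g C →
      IsCochain M (hom u m g) (((m : ℝ) + 1) * C) := by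
  intro m
  induction m with
  | zero =>
    intro g C hC hg
    exact ⟨fun a ha => T0_mem hm hg ha, fun a _ i => i.elim0, fun a _ i => i.elim0,
      fun a ha => by simpa [hom] using T0_bound hm hu hC hg ha⟩
  | succ m ih =>
    intro g C hC hg
    have hsl : ∀ {a : Fin (m + 1) → (H →L[ℂ] H)}, Args M a →
        IsCochain M (hom u m (slice g (a 0))) (((m : ℝ) + 1) * (C * ‖a 0‖)) :=
      fun ha => ih _ _ (mul_nonneg hC (norm_nonneg _)) (isCochain_slice hg (ha 0))
    have htail : ∀ {a : Fin (m + 1) → (H →L[ℂ] H)}, Args M a → Args M (Fin.tail a) :=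
      fun ha i => ha i.succ
    refine ⟨fun a ha => sub_mem (T0_mem hm hg ha) ((hsl ha).mem _ (htail ha)), ?_, ?_, ?_⟩
    · intro a ha i x hx y hy
      simp only [hom]
      rw [T0_add hm hg ha i hx hy]
      refine Fin.cases ?_ (fun i => ?_) i
      · simp only [Function.update_self, Fin.tail_update_zero]
        rw [hom_congr hm m _ _ (slice_update_add hg hx hy) _ (htail ha), hom_add]
        abel
      · simp only [Function.update_of_ne (Fin.succ_ne_zero i).symm, Fin.tail_update_succ]
        rw [(hsl ha).map_add _ (htail ha) i x hx y hy]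
        abel
    · intro a ha i c x hx
      simp only [hom]
      rw [T0_smul hm hg ha i c hx]
      refine Fin.cases ?_ (fun i => ?_) i
      · simp only [Function.update_self, Fin.tail_update_zero]
        rw [hom_congr hm m _ _ (slice_update_smul hg c hx) _ (htail ha), hom_smul, smul_sub]
      · simp only [Function.update_of_ne (Fin.succ_ne_zero i).symm, Fin.tail_update_succ]
        rw [(hsl ha).map_smul _ (htail ha) i c x hx, smul_sub]
    · intro a ha
      refine (norm_sub_le _ _).trans
        ((add_le_add (T0_bound hm hu hC hg ha) ((hsl ha).bound _ (htail ha))).trans_eq ?_)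
      rw [Fin.prod_univ_succ]
      push_cast
      simp only [Fin.tail]
      ring

lemma isCochain_neg {m : ℕ} {g : Coch H m} {C : ℝ} (hg : IsCochain M g C) :
    IsCochain M (-g) C :=
  ⟨fun a ha => neg_mem (hg.mem a ha),
    fun a ha i x hx y hy => by simp [hg.map_add a ha i x hx y hy]; abel,
    fun a ha i c x hx => by simp [hg.map_smul a ha i c x hx],
    fun a ha => by simpa using hg.bound a ha⟩

/-- A permutation of the family coming from the right passes through the average. -/
lemma isBimodular_pull {m : ℕ} (f : Coch H (m + 1)) {v : (H →L[ℂ] H)} (hv : v * star v = 1)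
    (σ : Equiv.Perm ι) (hσ : ∀ t, u t * v = u (σ t)) : IsBimodular M (pull u f) v := by
  classical
  have hst : ∀ t, v * star (u t) = star (u (σ.symm t)) := by
    intro t
    have h := congrArg star (hσ (σ.symm t))
    rw [Equiv.apply_symm_apply, star_mul] at h
    rw [← h, ← mul_assoc, hv, one_mul]
  refine ⟨fun a _ => ?_, fun a _ i => ?_, fun a _ => ?_⟩
  · simp only [pull_eq, ← av_mul_left]
    conv_rhs => rw [← av_relabel (0 : Fin (m + 2)) σ]
    refine av_congr fun τ => ?_
    have hb : bb u τ (Function.update a 0 (v * a 0))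
        = bb u (Function.update τ 0 (σ (τ 0))) a := by
      funext j
      refine Fin.cases ?_ (fun j => ?_) j
      · simp [bb, ← hσ, mul_assoc]
      · simp [bb]
    rw [hb, Function.update_self,
      Function.update_of_ne (Fin.last_pos.ne'), ← mul_assoc v, ← mul_assoc v, hst,
      Equiv.symm_apply_apply]
  · simp only [pull_eq]
    conv_rhs => rw [← av_relabel i.succ.castSucc σ.symm]
    refine av_congr fun τ => ?_
    have hne : i.castSucc ≠ i.succ := (Fin.castSucc_lt_succ (i := i)).ne
    have hp0 : (0 : Fin (m + 2)) ≠ i.succ.castSucc := Fin.ne_of_val_ne (by simp)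
    have hpl : Fin.last (m + 1) ≠ i.succ.castSucc := Fin.ne_of_val_ne (by simp; omega)
    set τ' := Function.update τ i.succ.castSucc (σ.symm (τ i.succ.castSucc)) with hτ'
    have hp : τ' i.succ.castSucc = σ.symm (τ i.succ.castSucc) := Function.update_self ..
    have hq : ∀ q, q ≠ i.succ.castSucc → τ' q = τ q := fun q hq =>
      Function.update_of_ne hq _ _
    have hb : bb u τ (Function.update a i.castSucc (a i.castSucc * v))
        = bb u τ' (Function.update a i.succ (v * a i.succ)) := by
      funext j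
      by_cases h1 : j = i.castSucc
      · subst h1
        have e : i.castSucc.succ = i.succ.castSucc := Fin.succ_castSucc i
        rw [bb, bb, Function.update_self, Function.update_of_ne hne, e, hp,
          hq _ (Fin.ne_of_val_ne (by simp)), ← hst]
        simp [mul_assoc]
      · by_cases h2 : j = i.succ
        · subst h2
          rw [bb, bb, Function.update_self, Function.update_of_ne hne.symm, hp,
            hq _ (Fin.ne_of_val_ne (by simp)), ← mul_assoc (u (σ.symm (τ i.succ.castSucc))) v,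
            hσ, Equiv.apply_symm_apply]
        · have n1 : j.castSucc ≠ i.succ.castSucc := fun h => h2 (Fin.castSucc_injective _ h)
          have n2 : j.succ ≠ i.succ.castSucc := fun h => h1 (Fin.succ_injective _
            (h.trans (Fin.succ_castSucc i).symm))
          rw [bb, bb, Function.update_of_ne h1, Function.update_of_ne h2, hq _ n1, hq _ n2]
    rw [hb, hq _ hp0, hq _ hpl]
  · simp only [pull_eq, ← av_mul_right]
    conv_rhs => rw [← av_relabel (Fin.last (m + 1)) σ.symm]
    refine av_congr fun τ => ?_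
    have hb : bb u τ (Function.update a (Fin.last m) (a (Fin.last m) * v))
        = bb u (Function.update τ (Fin.last (m + 1)) (σ.symm (τ (Fin.last (m + 1))))) a := by
      funext j
      refine Fin.lastCases ?_ (fun j => ?_) j
      · simp [bb, ← hst, mul_assoc, Fin.ne_of_val_ne]
      · have n1 : j.castSucc.succ ≠ Fin.last (m + 1) := Fin.ne_of_val_ne (by simp; omega)
        have n2 : j.castSucc.castSucc ≠ Fin.last (m + 1) := Fin.ne_of_val_ne (by simp; omega)
        simp [bb, n1, n2, Fin.castSucc_ne_last]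
    rw [hb, Function.update_self, Function.update_of_ne (Fin.last_pos.ne), mul_assoc _ _ v, hσ,
      Equiv.apply_symm_apply]

end Pull

open Pull in
/-- Averaging over the corners of finitely many isometries. -/
theorem pullGoal : PullGoal.{u} := by
  intro H _ _ _ M k f C ι _ _ u hC hf hcoc hm hu
  refine ⟨isCochain_pull hm hu hC hf, ⟨-hom u k f, isCochain_neg (isCochain_hom hm hu k f C hC hf),
    fun a ha => ?_⟩, fun v _ hv ⟨σ, hσ⟩ => isBimodular_pull f hv σ hσ⟩
  have h0 : hom u (k + 1) (hd f) a = 0 := by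
    rw [hom_congr hm (k + 1) _ 0 hcoc a ha, hom_zero]
  have h := homotopy hu k f a
  rw [h0, add_zero] at h
  simp [hd_neg, h]

end Vale.Agent.P082.F
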